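import Crest.Agent.X212.Cyf70.Cyl
import Crest.Agent.X212.Cyf70.Lam
import Crest.Agent.X212.Prm93.H
import Crest.Agent.X212.Cyf70.Flip
import Crest.Agent.X212.Ell97.Main
import Crest.Agent.X212.Cht98.Cov

-- ▼ part X212/Cyf70/L2
section

/-!
# Row 212, CYLF (helper70): `Ψ k : L²_k(Y × ℝ) → L²(ℝ, L²_k(Y))`, unitary for `k = 0`
-/

set_option autoImplicit false
set_option linter.unusedSectionVars false
noncomputable section
open scoped Manifold ContDiff Topology InnerProductSpace BoundedContinuousFunction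
open MeasureTheory Set Function Filter

namespace Crest.Agent.X212.Cyf70
open An An.Pre Sob92 Prm93

variable {E : Type} [NormedAddCommGroup E] [NormedSpace ℝ E] [FiniteDimensional ℝ E]
  [MeasurableSpace E] [BorelSpace E]
  {HM : Type} [TopologicalSpace HM] {I : ModelWithCorners ℝ E HM} [I.Boundaryless]
  {Y : Type} [TopologicalSpace Y] [ChartedSpace HM Y] [IsManifold I ∞ Y] [T2Space Y]
  [MeasurableSpace Y] [BorelSpace Y] [SecondCountableTopology Y] [CompactSpace Y]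
  {ι : Type} [Fintype ι]
  {V W : Type} [NormedAddCommGroup V] [InnerProductSpace ℝ V] [NormedAddCommGroup W]
  [InnerProductSpace ℝ W] {F : Pre I Y ι} {k j : ℕ} {p : Y → V →L[ℝ] V} {q : Y → W →L[ℝ] W}

/-- the `t`-invariant bundle -/
abbrev pc (p : Y → V →L[ℝ] V) : Y × ℝ → V →L[ℝ] V := fun x => p x.1

/-- the slice of a section -/
def slc (u : Sec (IC I) (pc p)) (t : ℝ) : Sec I p :=
  ⟨fun y => u.1 (y, t), sm_slice_fst u.2.1 t, hcs_slice_fst u.2.2.1 t, fun y => u.2.2.2 (y, t)⟩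

theorem dt_mem (F : Pre I Y ι) {u : Y × ℝ → V} (hu : u ∈ Sec (IC I) (pc p)) :
    (cylP F).D none u ∈ Sec (IC I) (pc p) :=
  ⟨(cylP F).sm_D hu.1 none, (cylP F).hcs_D hu.2.1 none, fun x =>
    (((p x.1).hasFDerivAt.comp_hasDerivAt x.2 (hasDerivAt_slice F hu.1 x.1 x.2)).unique
      ((hasDerivAt_slice F hu.1 x.1 x.2).congr_of_eventuallyEq
        (Eventually.of_forall fun s => hu.2.2 (x.1, s))))⟩

variable (F) in
/-- the time derivative of a section -/
def dt (u : Sec (IC I) (pc p)) : Sec (IC I) (pc p) := ⟨_, dt_mem F u.2⟩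

/-- the tensor product of a function of time and a section -/
def tens {φ : ℝ → ℝ} (h1 : ContDiff ℝ ∞ φ) (h2 : HasCompactSupport φ) (v : Sec I p) :
    Sec (IC I) (pc p) :=
  ⟨fun x => φ x.2 • v.1 x.1, (sm_snd h1).smul (sm_fst v.2.1),
    HasCompactSupport.intro (isCompact_univ.prod h2.isCompact) fun x hx => by
      rw [image_eq_zero_of_notMem_tsupport fun h => hx ⟨trivial, h⟩, zero_smul],
    fun x => by rw [map_smul, v.2.2.2]⟩

theorem hcs_slc (u : Sec (IC I) (pc p)) : HasCompactSupport fun t => F.toH k p (slc u t) :=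
  HasCompactSupport.intro (u.2.2.1.isCompact.image continuous_snd) fun t ht => by
    rw [show slc u t = 0 from Subtype.ext (funext fun y =>
      image_eq_zero_of_notMem_tsupport (f := u.1) fun h => ht ⟨(y, t), h, rfl⟩), map_zero]

theorem hasDerivAt_slc (u : Sec (IC I) (pc p)) (t : ℝ) :
    HasDerivAt (fun s => F.toH k p (slc u s)) (F.toH k p (slc (dt F u) t)) t := by
  let o : F.H k (triv Y ℝ) := F.toH k _ ⟨fun _ => 1, mem_triv contMDiff_const (.of_compactSpace _)⟩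
  let c := ContinuousLinearMap.smulRightL ℝ ℝ V (ContinuousLinearMap.id ℝ ℝ)
  let A : B F k V →L[ℝ] F.H k (triv Y V) := (mulB F k _).flip o ∘L B.clm c
  have hA : ∀ (g : B F k V) (v : Sec I p), B.fn g = v.1 → A g = fg F k p (F.toH k p v) := by
    intro g v e
    rw [RepT_toH rep_fg]
    exact RepT_toH' (rep_mulH (B.clm c g).cb (Maps.triv _)) _ _ (funext fun x => by simp [c, e])
  have hj : JS I univ fun s y => u.1 (y, s) := fun s _ y =>
    ContMDiffAt.comp (g := u.1) (f := fun z : ℝ × Y => (z.2, z.1)) (s, y) (u.2.1 _)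
      (contMDiffAt_snd.prodMk contMDiffAt_fst)
  have hf := hj.fam (F := F)
  have h1 := (A.hasFDerivAt.comp t (hf.hasFDerivAt (k := k) isCompact_univ isOpen_univ
    (mem_univ t))).hasDerivAt
  rw [ContinuousLinearMap.comp_apply, hA _ (slc (dt F u) t) (funext fun y => by
    rw [B.fn_swap, fn_toB ((hf.pd isCompact_univ isOpen_univ).cb t trivial)]
    exact (hasDerivAt_slice F u.2.1 y t).deriv),
    show A ∘ (fun s => toB F k fun y => u.1 (y, s)) = fun s => fg F k p (F.toH k p (slc u s)) from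
      funext fun s => hA _ _ (fn_toB (hf.cb s trivial))] at h1
  rw [hasDerivAt_iff_isLittleO] at h1 ⊢
  refine Asymptotics.IsLittleO.of_norm_left (h1.norm_left.congr_left fun s => ?_)
  rw [← map_smul, ← map_sub, ← map_sub, norm_fg]

theorem cont_slc (u : Sec (IC I) (pc p)) : Continuous fun t => F.toH k p (slc u t) :=
  continuous_iff_continuousAt.2 fun t => (hasDerivAt_slc u t).continuousAt

theorem memLp_slc (u : Sec (IC I) (pc p)) : MemLp (fun t => F.toH k p (slc u t)) 2 volume :=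
  (cont_slc u).memLp_of_hasCompactSupport (hcs_slc u)

theorem int_ip {u : Y × ℝ → V} (hu : Sm (IC I) u) (hc : HasCompactSupport u) :
    Integrable fun t => F.ip k (fun y => u (y, t)) fun y => u (y, t) :=
  ((R.toLp (memLp_slc (F := F) (k := k) (p := triv Y V) ⟨u, mem_triv hu hc⟩)).integrable
    (R.toLp (memLp_slc ⟨u, mem_triv hu hc⟩))).congr (ae_of_all _ fun _ => inner_toH ..)

theorem ip_slc_zero {u v : Y × ℝ → V} (hu : Sm (IC I) u) (hc : HasCompactSupport u)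
    (hv : Sm (IC I) v) :
    ∫ t, F.ip 0 (fun y => u (y, t)) (fun y => v (y, t)) = (cylP F).ip 0 u v :=
  (integral_cyl F (u := fun x => ⟪u x, v x⟫_ℝ) (hu.continuous.inner hv.continuous)
    (hc.mono fun x hx h => hx (by simp [h]))).symm

theorem ip_slc_le (k : ℕ) : ∀ {u : Y × ℝ → V}, Sm (IC I) u → HasCompactSupport u →
    ∫ t, F.ip k (fun y => u (y, t)) (fun y => u (y, t)) ≤ (cylP F).ip k u u := by
  induction k with
  | zero => exact fun hu hc => (ip_slc_zero hu hc hu).le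
  | succ k ih =>
    intro u hu hc
    have e : ∀ t, F.ip (k + 1) (fun y => u (y, t)) (fun y => u (y, t)) =
        F.ip 0 (fun y => u (y, t)) (fun y => u (y, t)) + ∑ a,
          F.ip k (fun y => (cylP F).D (some a) u (y, t)) fun y => (cylP F).D (some a) u (y, t) :=
      fun t => by simp only [D_some F hu]; rfl
    have i := fun a => int_ip (F := F) (k := k) ((cylP F).sm_D hu (some a)) ((cylP F).hcs_D hc _)
    simp only [e]
    rw [integral_add (int_ip hu hc) (integrable_finsetSum _ fun a _ => i a),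
      integral_finsetSum _ fun a _ => i a, ip_slc_zero hu hc hu, ip, ip, Fintype.sum_option]
    exact add_le_add_right (le_add_of_nonneg_of_le ((cylP F).ip_nonneg _ _) (Finset.sum_le_sum
      fun a _ => ih ((cylP F).sm_D hu _) ((cylP F).hcs_D hc _))) _

variable (F k p) in
/-- slices of smooth sections -/
def psl : Sec (IC I) (pc p) →ₗ[ℝ] Lam (F.H k p) where
  toFun u := (memLp_slc u).toLp _
  map_add' u v := (R.toLp _).ext' ((R.toLp _).add (R.toLp _)) fun t =>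
    map_add (F.toH k p) (slc u t) (slc v t)
  map_smul' c u := (R.toLp _).ext' ((R.toLp _).smul c) fun t => map_smul (F.toH k p) c (slc u t)

theorem R_psl (u : Sec (IC I) (pc p)) : R (psl F k p u) fun t => F.toH k p (slc u t) :=
  R.toLp (memLp_slc u)

theorem inner_psl (u v : Sec (IC I) (pc p)) : ⟪psl F k p u, psl F k p v⟫_ℝ =
    ∫ t, F.ip k (fun y => u.1 (y, t)) fun y => v.1 (y, t) :=
  ((R_psl u).inner (R_psl v)).trans (integral_congr_ae (ae_of_all _ fun t =>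
    F.inner_toH k p (slc u t) (slc v t)))

theorem norm_psl_le (u : Sec (IC I) (pc p)) : ‖psl F k p u‖ ≤ 1 * (cylP F).nrm k u.1 := by
  rw [one_mul, norm_eq_sqrt_real_inner, inner_psl]
  exact Real.sqrt_le_sqrt (ip_slc_le k u.2.1 u.2.2.1)

variable (F k p) in
/-- `L²_k(Y × ℝ) → L²(ℝ, L²_k(Y))` -/
def Ψ : (cylP F).H k (pc p) →L[ℝ] Lam (F.H k p) :=
  (exists_ext (F := cylP F) (k := k) (psl F k p) zero_le_one norm_psl_le).choose

theorem Ψ_toH (u : Sec (IC I) (pc p)) : Ψ F k p ((cylP F).toH k (pc p) u) = psl F k p u :=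
  (exists_ext (F := cylP F) (k := k) (psl F k p) zero_le_one norm_psl_le).choose_spec.1 u

theorem R_Ψ (u : Sec (IC I) (pc p)) :
    R (Ψ F k p ((cylP F).toH k (pc p) u)) fun t => F.toH k p (slc u t) := by
  rw [Ψ_toH]; exact R_psl u

theorem norm_Ψ_le : ‖Ψ F k p‖ ≤ 1 :=
  (exists_ext (F := cylP F) (k := k) (psl F k p) zero_le_one norm_psl_le).choose_spec.2

theorem inner_Ψ (x y : (cylP F).H 0 (pc p)) : ⟪Ψ F 0 p x, Ψ F 0 p y⟫_ℝ = ⟪x, y⟫_ℝ := by
  induction x, y using H_ind₂ with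
  | hP => exact isClosed_eq (by fun_prop) (by fun_prop)
  | h u v => rw [Ψ_toH, Ψ_toH, inner_psl, ip_slc_zero u.2.1 u.2.2.1 v.2.1, inner_toH]

theorem norm_Ψ (x : (cylP F).H 0 (pc p)) : ‖Ψ F 0 p x‖ = ‖x‖ := by
  rw [norm_eq_sqrt_real_inner, inner_Ψ, norm_eq_sqrt_real_inner]

theorem Ψ_surj : Surjective (Ψ F 0 p) := by
  have : CompleteSpace (Ψ F 0 p).range :=
    (Fred93.isClosed_range_of_bound (c := 1) fun x => by rw [norm_Ψ, one_mul]).completeSpace_coe
  refine LinearMap.range_eq_top.1 (Submodule.orthogonal_eq_bot_iff.1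
    ((Submodule.eq_bot_iff _).2 fun g hg => ?_))
  have hl : LocallyIntegrable g volume := (Lp.memLp _).locallyIntegrable one_le_two
  refine Lp.eq_zero_iff_ae_eq_zero.2 (ae_eq_zero_of_integral_contDiff_smul_eq_zero hl
    fun φ h1 h2 => ext_inner_left ℝ fun x => ?_)
  induction x using H_ind with
  | hP => exact isClosed_eq (by fun_prop) (by fun_prop)
  | h v =>
    have := hg _ ⟨(cylP F).toH 0 _ (tens h1 h2 v), rfl⟩
    rw [ContinuousLinearMap.coe_coe, (R_Ψ _).inner (R.rfl g)] at this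
    rw [inner_zero_right, ← integral_inner
      (hl.integrable_smul_left_of_hasCompactSupport h1.continuous h2), ← this]
    refine integral_congr_ae (ae_of_all _ fun t => ?_)
    simp only [show slc (tens h1 h2 v) t = φ t • v from rfl, map_smul, real_inner_smul_left,
      real_inner_smul_right]

variable (F p) in
/-- **`L²(Y × ℝ) = L²(ℝ, L²(Y))`** -/
def Ψe : (cylP F).H 0 (pc p) ≃ₗᵢ[ℝ] Lam (F.H 0 p) :=
  LinearIsometryEquiv.ofSurjective ⟨(Ψ F 0 p).toLinearMap, norm_Ψ⟩ Ψ_surj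

theorem Ψe_apply (x : (cylP F).H 0 (pc p)) : Ψe F p x = Ψ F 0 p x := rfl

/-- operators acting slice by slice -/
theorem Ψ_nat {k' : ℕ} {A : (cylP F).H k' (pc p) →L[ℝ] (cylP F).H j (pc q)}
    {T : (Y × ℝ → V) → Y × ℝ → W} (hA : (cylP F).Rep A T) {a : F.H k p →L[ℝ] F.H j q}
    {T' : (Y → V) → Y → W} (ha : F.Rep a T') (b : ℝ →ᵇ ℝ) (hk : k ≤ k')
    (h : ∀ (u : Sec (IC I) (pc p)) y t, T u.1 (y, t) = b t • T' (fun y => u.1 (y, t)) y)
    (x : (cylP F).H k' (pc p)) :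
    Ψ F j q (A x) = ma b a (Ψ F k p ((cylP F).incl k' k (pc p) x)) := by
  induction x using H_ind with
  | hP => exact isClosed_eq (by fun_prop) (by fun_prop)
  | h u =>
    rw [RepT_toH hA, incl_toH hk]
    refine (R_Ψ _).ext' ((R_Ψ u).ma b a) fun t => ?_
    rw [RepT_toH ha, ← map_smul]
    exact congrArg _ (Subtype.ext (funext fun y => h u y t))

theorem Ψ_incl (h : j ≤ k) (x : (cylP F).H k (pc p)) :
    Ψ F j p ((cylP F).incl k j (pc p) x) = cp (F.incl k j p) (Ψ F k p x) := by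
  rw [Ψ_nat (rep_incl h) (rep_incl h) 1 le_rfl (fun _ _ _ => (one_smul _ _).symm), incl_self]

theorem Ψ_smul {b : ℝ →ᵇ ℝ} (hb : (cylP F).Cb fun x => b x.2) (x : (cylP F).H k (pc p)) :
    Ψ F k p (smulH (cylP F) k (pc p) (fun x => b x.2) x) = mt _ b (Ψ F k p x) := by
  rw [Ψ_nat (rep_smulH hb) Rep_id b le_rfl (fun _ _ _ => rfl), incl_self]

theorem Ψ_mul {f : Y → V →L[ℝ] W} (hf : Sm I f) (hm : Maps p q f) (x : (cylP F).H k (pc p))
    (hf' : (cylP F).Cb fun x => f x.1) :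
    Ψ F k q ((cylP F).mulH k (pc p) (pc q) (fun x => f x.1) x) =
      cp (F.mulH k p q f) (Ψ F k p x) := by
  rw [Ψ_nat (rep_mulH hf' fun x => hm x.1) (rep_mulH (Cb_of_compact hf) hm) 1 le_rfl
    (fun _ _ _ => (one_smul _ _).symm), incl_self]

variable (F k p) in
/-- the time derivative -/
def DtH : (cylP F).H (k + 1) (pc p) →L[ℝ] (cylP F).H k (pc p) :=
  (cylP F).lift (k + 1) k (pc p) (pc p) ((cylP F).D none)

theorem rep_DtH' : (cylP F).Rep (DtH F k p) ((cylP F).D none) ∧ ‖DtH F k p‖ ≤ 1 :=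
  rep_liftT (fun _ hu => dt_mem F hu) (fun _ hu _ hv => (cylP F).D_add hu.1 hv.1 _)
    (fun c _ hu => (cylP F).D_smul hu.1 c _) zero_le_one fun u _ => by
      simpa using nrm_D_le k u none

theorem rep_DtH : (cylP F).Rep (DtH F k p) ((cylP F).D none) := rep_DtH'.1

theorem DtH_toH (u : Sec (IC I) (pc p)) :
    DtH F k p ((cylP F).toH (k + 1) _ u) = (cylP F).toH k _ (dt F u) := RepT_toH rep_DtH u

theorem incl_DtH (h : j ≤ k) (x : (cylP F).H (k + 1) (pc p)) :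
    (cylP F).incl k j _ (DtH F k p x) = DtH F j p ((cylP F).incl (k + 1) (j + 1) _ x) :=
  Rep_incl rep_DtH rep_DtH (by omega) h x

theorem DtH_skew (x y : (cylP F).H 1 (pc p)) : ⟪DtH F 0 p x, (cylP F).incl 1 0 _ y⟫_ℝ =
    -⟪(cylP F).incl 1 0 _ x, DtH F 0 p y⟫_ℝ := by
  induction x, y using H_ind₂ with
  | hP => exact isClosed_eq (by fun_prop) (by fun_prop)
  | h u v =>
    rw [DtH_toH, DtH_toH, incl_toH zero_le_one, incl_toH zero_le_one, inner_toH, inner_toH, ip, ip,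
      eq_neg_iff_add_eq_zero, ← integral_add
        ((cylP F).integrable_inner (dt F u).2.1.continuous (dt F u).2.2.1 v.2.1.continuous)
        ((cylP F).integrable_inner u.2.1.continuous u.2.2.1 (dt F v).2.1.continuous),
      ← integral_D_none F (smooth_bil (innerSL ℝ (E := V)) u.2.1 v.2.1)
        (hcs_bil_left _ _ u.2.2.1)]
    refine integral_congr_ae (ae_of_all _ fun x => ?_)
    exact (dv_bil (innerSL ℝ (E := V)) (u.2.1.mdifferentiableAt (by simp))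
      (v.2.1.mdifferentiableAt (by simp))).symm

end Crest.Agent.X212.Cyf70
end
end

-- ▼ part X212/Cyf70/Op

/-!
# Row 212, CYLF (helper70): translation invariant operators of Dirac type `ν (∂_t + L)` on `Y × ℝ`
-/

set_option autoImplicit false
set_option linter.unusedSectionVars false
noncomputable section
open scoped Manifold ContDiff Topology InnerProductSpace BoundedContinuousFunction
open MeasureTheory Set Function Filter

namespace Crest.Agent.X212.Cyf70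
open An An.Pre Sob92 Ell97
open Fred93 (Est)

section good
variable {E : Type} [NormedAddCommGroup E] [NormedSpace ℝ E] [FiniteDimensional ℝ E]
  [MeasurableSpace E] [BorelSpace E]
  {HM : Type} [TopologicalSpace HM] {I : ModelWithCorners ℝ E HM}
  {M : Type} [TopologicalSpace M] [ChartedSpace HM M] [IsManifold I ∞ M] [MeasurableSpace M]
  {ι : Type} [Fintype ι] {V W : Type} [NormedAddCommGroup V] [InnerProductSpace ℝ V]
  [NormedAddCommGroup W] [InnerProductSpace ℝ W]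

theorem good_of_cb {F : Fr I M ι} {A : Op M ι V W} (hp : F.Cb A.p) (hq : F.Cb A.q)
    (hσ : ∀ a, F.Cb (A.σ a)) (hB : F.Cb A.B) (p1 : ∀ x v, A.p x (A.p x v) = A.p x v)
    (p2 : ∀ x v w, ⟪A.p x v, w⟫_ℝ = ⟪v, A.p x w⟫_ℝ) (q1 : ∀ x v, A.q x (A.q x v) = A.q x v)
    (q2 : ∀ x v w, ⟪A.q x v, w⟫_ℝ = ⟪v, A.q x w⟫_ℝ) (σp : ∀ a x v, A.σ a x (A.p x v) = A.σ a x v)
    (qσ : ∀ a x v, A.q x (A.σ a x v) = A.σ a x v) (qB : ∀ x v, A.q x (A.B x v) = A.B x v)
    (Pσ : ∀ a x, ∑ b, F.P a b x • A.σ b x = A.σ a x) : ∃ C, A.Good F C := by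
  obtain ⟨C1, h1⟩ := hp
  obtain ⟨C2, h2⟩ := hq
  choose C3 h3 using hσ
  obtain ⟨C4, h4⟩ := hB
  have h0 : ∀ k, 0 ≤ ∑ a, |C3 a k| := fun k => Finset.sum_nonneg fun _ _ => abs_nonneg _
  refine ⟨fun k => |C1 k| + |C2 k| + |C4 k| + ∑ a, |C3 a k|, ⟨CBs_mono h1 fun k => ?_, p1, p2⟩,
    ⟨CBs_mono h2 fun k => ?_, q1, q2⟩, fun a => CBs_mono (h3 a) fun k => ?_,
    CBs_mono h4 fun k => ?_, σp, qσ, qB, Pσ⟩
  · linarith [le_abs_self (C1 k), abs_nonneg (C2 k), abs_nonneg (C4 k), h0 k]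
  · linarith [le_abs_self (C2 k), abs_nonneg (C1 k), abs_nonneg (C4 k), h0 k]
  · linarith [le_abs_self (C3 a k), abs_nonneg (C1 k), abs_nonneg (C2 k), abs_nonneg (C4 k),
      Finset.single_le_sum (f := fun a => |C3 a k|) (fun _ _ => abs_nonneg _) (Finset.mem_univ a)]
  · linarith [le_abs_self (C4 k), abs_nonneg (C1 k), abs_nonneg (C2 k), h0 k]

end good

variable {E : Type} [NormedAddCommGroup E] [NormedSpace ℝ E] [FiniteDimensional ℝ E]
  [MeasurableSpace E] [BorelSpace E]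
  {HM : Type} [TopologicalSpace HM] {I : ModelWithCorners ℝ E HM} [I.Boundaryless]
  {Y : Type} [TopologicalSpace Y] [ChartedSpace HM Y] [IsManifold I ∞ Y] [T2Space Y]
  [MeasurableSpace Y] [BorelSpace Y] [SecondCountableTopology Y] [CompactSpace Y]
  {ι : Type} [Fintype ι]
  {V W : Type} [NormedAddCommGroup V] [InnerProductSpace ℝ V] [NormedAddCommGroup W]
  [InnerProductSpace ℝ W] [FiniteDimensional ℝ V] [FiniteDimensional ℝ W]

/-- the operator on the cylinder -/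
abbrev cyo (A : Op Y (Option ι) V W) : Op (Y × ℝ) (Option ι) V W :=
  ⟨pc A.p, pc A.q, fun a x => A.σ a x.1, fun x => A.B x.1⟩

/-- the inverse of the symbol of `dt` -/
def nu (A : Op Y (Option ι) V W) (y : Y) : W →L[ℝ] V := Op.tr (A.σ none y)

/-- the operator on the cross-section -/
abbrev sop (A : Op Y (Option ι) V W) : Op Y ι V V :=
  ⟨A.p, A.p, fun a y => nu A y ∘L A.σ (some a) y, fun y => nu A y ∘L A.B y⟩

variable (F : Fr I Y ι) (A : Op Y (Option ι) V W)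

/-- `cyo A = ν (∂_t + L)` is of Dirac type, `L = sop A` is symmetric -/
structure CyO : Prop where
  dim : Module.finrank ℝ E ≤ 3
  good : ∃ C, (cyo A).Good (cyl F) C
  cl : (cyo A).Cliff (cyl F)
  sym : ∀ u v : Sec I A.p, F.ip 0 ((sop A).app F u.1) v.1 = F.ip 0 u.1 ((sop A).app F v.1)

/-- `L` on Sobolev spaces -/
abbrev LH (k : ℕ) : F.H (k + 1) A.p →L[ℝ] F.H k A.p := (sop A).H F k

/-- the operator on Sobolev spaces of the cylinder -/
def AH (k : ℕ) : (cylP F.toPre).H (k + 1) (pc A.p) →L[ℝ] (cylP F.toPre).H k (pc A.q) :=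
  (cyo A).H (cyl F) k

/-- its formal adjoint -/
def AS (k : ℕ) : (cylP F.toPre).H (k + 1) (pc A.q) →L[ℝ] (cylP F.toPre).H k (pc A.p) :=
  Hs (cyl F) (cyo A) k

/-- `ν⁻¹` -/
def NH (k : ℕ) : (cylP F.toPre).H k (pc A.q) →L[ℝ] (cylP F.toPre).H k (pc A.p) :=
  (cylP F.toPre).mulH k _ _ fun x => nu A x.1

/-- `ν` -/
def NH' (k : ℕ) : (cylP F.toPre).H k (pc A.p) →L[ℝ] (cylP F.toPre).H k (pc A.q) :=
  (cylP F.toPre).mulH k _ _ fun x => A.σ none x.1

/-- `∂_t : L²₁(Y × ℝ) → L²(ℝ, L²(Y))` -/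
abbrev TH (p : Y → V →L[ℝ] V) : (cylP F.toPre).H 1 (pc p) →L[ℝ] Lam (F.H 0 p) :=
  Ψ F.toPre 0 p ∘L DtH F.toPre 0 p

variable {F A}

theorem inner_nu (y : Y) (w : W) (v : V) : ⟪nu A y w, v⟫_ℝ = ⟪w, A.σ none y v⟫_ℝ := tr_inner _ _ _

namespace CyO
variable (h : CyO F A) {k : ℕ}
include h

theorem nu_σ (y : Y) (v : V) : nu A y (A.σ none y v) = A.p y v := ext_inner_right ℝ fun w => by
  have := h.cl.1 none none (y, 0) v w
  rw [inner_nu]; change _ + _ = 2 * 1 * _ at this; linarith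

theorem inner_nu_nu (y : Y) (v w : W) : ⟪nu A y v, nu A y w⟫_ℝ = ⟪A.q y v, w⟫_ℝ := by
  have := h.cl.2 none none (y, 0) v w
  change ⟪-nu A y v, -nu A y w⟫_ℝ + ⟪-nu A y v, -nu A y w⟫_ℝ = 2 * 1 * ⟪A.q y v, w⟫_ℝ at this
  rw [inner_neg_neg] at this; linarith

theorem σ_nu (y : Y) (w : W) : A.σ none y (nu A y w) = A.q y w := ext_inner_left ℝ fun v => by
  rw [← inner_nu, h.inner_nu_nu]; exact h.good.choose_spec.q.symm (y, 0) v w

theorem p_nu (y : Y) (w : W) : A.p y (nu A y w) = nu A y w := ext_inner_right ℝ fun v => by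
  rw [show ⟪A.p y (nu A y w), v⟫_ℝ = ⟪nu A y w, A.p y v⟫_ℝ from h.good.choose_spec.p.symm (y, 0) _ _,
    inner_nu, inner_nu]
  exact congrArg _ (h.good.choose_spec.σp none (y, 0) v)

theorem skew (a : ι) (y : Y) (v w : V) :
    ⟪nu A y (A.σ (some a) y v), w⟫_ℝ = -⟪v, nu A y (A.σ (some a) y w)⟫_ℝ := by
  have := h.cl.1 (some a) none (y, 0) v w
  change _ + _ = 2 * 0 * _ at this
  rw [inner_nu, real_inner_comm _ v, inner_nu, real_inner_comm (A.σ none y v)]; linarith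

theorem sm_σ (a : Option ι) : Sm I (A.σ a) := sm_slice_fst (h.good.choose_spec.σ a).1 0

theorem sm_nu : Sm I (nu A) := (trL V W).contMDiff.comp (h.sm_σ none)

theorem cliffL : (sop A).CliffL F := fun a b y v w => by
  have q : ∀ a v, A.q y (A.σ a y v) = A.σ a y v := fun a => h.good.choose_spec.qσ a (y, 0)
  simp only [ContinuousLinearMap.comp_apply, h.inner_nu_nu, q]
  exact h.cl.1 (some a) (some b) (y, 0) v w

theorem cliff : (sop A).Cliff F := by
  refine ⟨h.cliffL, fun a b y v w => ?_⟩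
  have e : ∀ a, ((sop A).adj F).σ a y = (sop A).σ a y := fun a => ContinuousLinearMap.ext fun v =>
    ext_inner_right ℝ fun w => by
      change ⟪-Op.tr _ v, w⟫_ℝ = _
      rw [inner_neg_left, tr_inner]; exact (h.skew a y v w).symm
  rw [e, e]; exact h.cliffL a b y v w

theorem good_sop : ∃ C, (sop A).Good F C := by
  obtain ⟨C, g⟩ := h.good
  have hp : F.Cb A.p := Cb_of_compact (sm_slice_fst g.p.cb.1 0)
  refine good_of_cb hp hp (fun a => Cb_of_compact (h.sm_nu.clm_comp (h.sm_σ _)))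
    (Cb_of_compact (h.sm_nu.clm_comp (sm_slice_fst g.B.1 0))) (fun y => g.p.idem (y, 0))
    (fun y => g.p.symm (y, 0)) (fun y => g.p.idem (y, 0)) (fun y => g.p.symm (y, 0))
    (fun a y v => congrArg (nu A y) (g.σp (some a) (y, 0) v)) (fun a y v => h.p_nu y _)
    (fun y v => h.p_nu y _) fun a y => ?_
  have := g.Pσ (some a) (y, 0)
  rw [Fintype.sum_option] at this
  change (0 : ℝ) • _ + ∑ b, F.P a b y • A.σ (some b) y = A.σ (some a) y at this
  rw [zero_smul, zero_add] at this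
  simp only [← this, ContinuousLinearMap.comp_finsetSum, ContinuousLinearMap.comp_smul]

theorem tameY : ∃ C, F.Tame C := Cht98.exists_tame F (h.dim.trans (by norm_num))

theorem tameZ : ∃ C, (cyl F).Tame C := Cht98.tame_cyl F h.dim

theorem symH (x y : F.H 1 A.p) :
    ⟪LH F A 0 x, F.incl 1 0 A.p y⟫_ℝ = ⟪F.incl 1 0 A.p x, LH F A 0 y⟫_ℝ := by
  obtain ⟨C, g⟩ := h.good_sop
  induction x, y using H_ind₂ with
  | hP => exact isClosed_eq (by fun_prop) (by fun_prop)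
  | h u v =>
    rw [LH, H_toH g, H_toH g, incl_toH zero_le_one, incl_toH zero_le_one, inner_toH, inner_toH]
    exact h.sym u v

theorem Hs_eq : Hs F (sop A) 0 = LH F A 0 := by
  obtain ⟨C, g⟩ := h.good_sop
  obtain ⟨C', t⟩ := h.tameY
  refine ContinuousLinearMap.ext fun y => ext_inner_left ℝ fun x => ?_
  refine (denseRange_incl (F := F.toPre) (p := A.p) zero_le_one).induction_on x
    (isClosed_eq (by fun_prop) (by fun_prop)) fun x => ?_
  exact (adjH t g x y).symm.trans (h.symH x y)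

theorem frL (k : ℕ) : Fred93.Fr (LH F A k) 0 := by
  obtain ⟨C, g⟩ := h.good_sop
  obtain ⟨C', t⟩ := h.tameY
  obtain ⟨_, h1⟩ := Ell97.gard t g h.cliff.1 0
  obtain ⟨_, h2⟩ := gard_adj t g h.cliff.2 0
  refine ((par t g h.cliff).fr_of_est (Cht98.rellich zero_lt_one) (Cht98.rellich zero_lt_one)
    h1 h2 k).cast (sub_eq_zero.2 ?_)
  exact congrArg (fun T : F.H 1 A.p →L[ℝ] F.H 0 A.p => (Module.finrank ℝ T.ker : ℤ)) h.Hs_eq.symm

theorem cb_nu : (cylP F.toPre).Cb fun x => nu A x.1 := Cht98.Cb_fst _ (Cb_of_compact h.sm_nu)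

theorem cb_σ (a : Option ι) : (cylP F.toPre).Cb fun x => A.σ a x.1 := ⟨_, h.good.choose_spec.σ a⟩

theorem rep_NH : (cylP F.toPre).Rep (NH F A k) fun u x => nu A x.1 (u x) :=
  rep_mulH h.cb_nu (Maps.of_left fun x => h.p_nu x.1)

theorem rep_NH' : (cylP F.toPre).Rep (NH' F A k) fun u x => A.σ none x.1 (u x) :=
  rep_mulH (h.cb_σ none) (Maps.of_left (h.good.choose_spec.qσ none))

theorem NH_NH' (x : (cylP F.toPre).H k (pc A.p)) : NH F A k (NH' F A k x) = x :=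
  DFunLike.congr_fun (RepT_eq (RepT_comp h.rep_NH h.rep_NH') Rep_id fun u =>
    funext fun x => (h.nu_σ _ _).trans (u.2.2.2 x)) x

theorem NH'_NH (x : (cylP F.toPre).H k (pc A.q)) : NH' F A k (NH F A k x) = x :=
  DFunLike.congr_fun (RepT_eq (RepT_comp h.rep_NH' h.rep_NH) Rep_id fun u =>
    funext fun x => (h.σ_nu _ _).trans (u.2.2.2 x)) x

theorem incl_NH {j : ℕ} (hj : j ≤ k) (x : (cylP F.toPre).H k (pc A.q)) :
    (cylP F.toPre).incl k j _ (NH F A k x) = NH F A j ((cylP F.toPre).incl k j _ x) :=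
  Rep_incl h.rep_NH h.rep_NH hj hj x

theorem incl_NH' {j : ℕ} (hj : j ≤ k) (x : (cylP F.toPre).H k (pc A.p)) :
    (cylP F.toPre).incl k j _ (NH' F A k x) = NH' F A j ((cylP F.toPre).incl k j _ x) :=
  Rep_incl h.rep_NH' h.rep_NH' hj hj x

theorem inner_NH (x : (cylP F.toPre).H 0 (pc A.q)) (y : (cylP F.toPre).H 0 (pc A.p)) :
    ⟪NH F A 0 x, y⟫_ℝ = ⟪x, NH' F A 0 y⟫_ℝ := by
  induction x, y using H_ind₂ with
  | hP => exact isClosed_eq (by fun_prop) (by fun_prop)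
  | h u v =>
    rw [RepT_toH h.rep_NH, RepT_toH h.rep_NH', inner_toH, inner_toH]
    exact integral_congr_ae (ae_of_all _ fun x => inner_nu _ _ _)

theorem rep_AH : (cylP F.toPre).Rep (AH F A k) ((cyo A).app (cyl F)) :=
  (rep_OpH h.good.choose_spec k).1

theorem adj_AH (x : (cylP F.toPre).H 1 (pc A.p)) (y : (cylP F.toPre).H 1 (pc A.q)) :
    ⟪AH F A 0 x, (cylP F.toPre).incl 1 0 _ y⟫_ℝ = ⟪(cylP F.toPre).incl 1 0 _ x, AS F A 0 y⟫_ℝ :=
  adjH h.tameZ.choose_spec h.good.choose_spec x y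

theorem reg_AH {y : (cylP F.toPre).H 0 (pc A.q)} {g : (cylP F.toPre).H 0 (pc A.p)}
    (H : ∀ u, ⟪AH F A 0 u, y⟫_ℝ = ⟪(cylP F.toPre).incl 1 0 _ u, g⟫_ℝ) :
    ∃ v, (cylP F.toPre).incl 1 0 _ v = y ∧ AS F A 0 v = g :=
  weak_reg (par h.tameZ.choose_spec h.good.choose_spec h.cl) H

theorem reg_AS {y : (cylP F.toPre).H 0 (pc A.p)} {g : (cylP F.toPre).H 0 (pc A.q)}
    (H : ∀ u, ⟪AS F A 0 u, y⟫_ℝ = ⟪(cylP F.toPre).incl 1 0 _ u, g⟫_ℝ) :
    ∃ v, (cylP F.toPre).incl 1 0 _ v = y ∧ AH F A 0 v = g :=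
  weak_reg (par h.tameZ.choose_spec h.good.choose_spec h.cl).swap H

theorem gard_AH : ∃ K, Est (AH F A k) ((cylP F.toPre).incl (k + 1) 0 (pc A.p)) K :=
  Ell97.gard h.tameZ.choose_spec h.good.choose_spec h.cl.1 k

/-- `ν⁻¹ A = ∂_t + L` -/
theorem Ψ_AH (x : (cylP F.toPre).H (k + 1) (pc A.p)) : Ψ F.toPre k A.p (NH F A k (AH F A k x)) =
    Ψ F.toPre k A.p (DtH F.toPre k A.p x) + cp (LH F A k) (Ψ F.toPre (k + 1) A.p x) := by
  obtain ⟨C', g'⟩ := h.good_sop
  induction x using H_ind with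
  | hP => exact isClosed_eq (by fun_prop) (by fun_prop)
  | h u =>
    rw [RepT_toH h.rep_AH, RepT_toH h.rep_NH, DtH_toH]
    refine (R_Ψ _).ext' ((R_Ψ _).add ((R_Ψ u).ma 1 _)) fun t => ?_
    rw [BoundedContinuousFunction.coe_one, Pi.one_apply, one_smul, LH, H_toH g', ← map_add]
    refine congrArg _ (Subtype.ext (funext fun y => ?_))
    change nu A y (∑ a, A.σ a y ((cylP F.toPre).D a u.1 (y, t)) + A.B y (u.1 (y, t))) =
      (dt F.toPre u).1 (y, t) + (∑ a, nu A y (A.σ (some a) y (F.D a (fun z => u.1 (z, t)) y)) +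
        nu A y (A.B y (u.1 (y, t))))
    rw [Fintype.sum_option, map_add, map_add, map_sum, h.nu_σ, add_assoc]
    simp only [D_some _ u.2.1]
    exact congrArg (· + _) ((dt F.toPre u).2.2.2 (y, t))

/-- **The cylinder is an abstract cylinder.** -/
theorem cylD : CylD 1 (F.incl 1 0 A.p) (LH F A 0) (Ψ F.toPre 1 A.p) (TH F A.p) := by
  have eI := fun x => (Ψ_incl (F := F.toPre) (p := A.p) zero_le_one x).symm
  have eA : ∀ x, TH F A.p x + cp (LH F A 0) (Ψ F.toPre 1 A.p x) =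
      Ψ F.toPre 0 A.p (NH F A 0 (AH F A 0 x)) := fun x => (h.Ψ_AH x).symm
  have ext : ∀ {y z : Lam (F.H 0 A.p)}, (∀ u, ⟪cp (F.incl 1 0 A.p) (Ψ F.toPre 1 A.p u), y⟫_ℝ =
      ⟪cp (F.incl 1 0 A.p) (Ψ F.toPre 1 A.p u), z⟫_ℝ) → y = z := fun {y z} H => by
    refine ext_inner_left ℝ fun x => ?_
    obtain ⟨x, rfl⟩ := Ψ_surj x
    refine (denseRange_incl (F := cylP F.toPre) (p := pc A.p) zero_le_one).induction_on x
      (isClosed_eq (by fun_prop) (by fun_prop)) fun x => ?_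
    rw [← eI, H]
  have sk : ∀ u v, ⟪TH F A.p u, cp (F.incl 1 0 A.p) (Ψ F.toPre 1 A.p v)⟫_ℝ =
      -⟪cp (F.incl 1 0 A.p) (Ψ F.toPre 1 A.p u), TH F A.p v⟫_ℝ := fun u v => by
    simp only [eI, ContinuousLinearMap.comp_apply, inner_Ψ, DtH_skew]
  have sy : ∀ u v : Lam (F.H 1 A.p), ⟪cp (LH F A 0) u, cp (F.incl 1 0 A.p) v⟫_ℝ =
      ⟪cp (F.incl 1 0 A.p) u, cp (LH F A 0) v⟫_ℝ := fun u v =>
    R.inner_eq (by rr) (by rr) (by rr) (by rr) (ae_of_all _ fun t => by simp [h.symH])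
  have eS : ∀ x, -TH F A.p x + cp (LH F A 0) (Ψ F.toPre 1 A.p x) =
      Ψ F.toPre 0 A.p (AS F A 0 (NH' F A 1 x)) := fun x => ext fun u => by
    rw [inner_add_right, inner_neg_right, ← sk, ← sy, ← inner_add_left, eA, eI, eI, inner_Ψ, inner_Ψ,
      h.inner_NH, ← h.incl_NH' zero_le_one, h.adj_AH]
  refine ⟨one_mul 1, incl_inj F zero_le_one _, h.symH, fun x y e => ?_, ?_, fun y z H => ?_,
    fun y z H => ?_, ?_, fun b h1 h2 => ?_⟩
  · exact incl_inj (cyl F) zero_le_one _ ((Ψe F.toPre A.p).injective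
      ((eI x).symm.trans ((congrArg _ e).trans (eI y))))
  · refine ((cylP F.toPre).dense_toH 1 (pc A.p)).mono ?_
    rintro _ ⟨u, rfl⟩
    refine ⟨_, _, hasDerivAt_slc u, cont_slc _, hcs_slc u, R_Ψ u, ?_⟩
    rw [ContinuousLinearMap.comp_apply, DtH_toH]
    exact (R_Ψ _).congr fun t => by rw [one_smul, incl_toH zero_le_one]
  · obtain ⟨y, rfl⟩ := Ψ_surj y
    obtain ⟨z, rfl⟩ := Ψ_surj z
    obtain ⟨v, h1, h2⟩ := h.reg_AH (y := NH' F A 0 y) (g := z) fun u => by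
      have := H u
      rwa [eA, eI, inner_Ψ, inner_Ψ, h.inner_NH] at this
    refine ⟨NH F A 1 v, ?_, ?_⟩
    · rw [eI, h.incl_NH zero_le_one, h1, h.NH_NH']
    · rw [eS, h.NH'_NH, h2]
  · obtain ⟨y, rfl⟩ := Ψ_surj y
    obtain ⟨z, rfl⟩ := Ψ_surj z
    obtain ⟨v, h1, h2⟩ := h.reg_AS (y := y) (g := NH' F A 0 z) fun u => by
      have := H (NH F A 1 u)
      rwa [eS, eI, inner_Ψ, inner_Ψ, h.NH'_NH, h.incl_NH zero_le_one, h.inner_NH] at this
    exact ⟨v, by rw [eI, h1], by rw [eA, h2, h.NH_NH']⟩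
  · obtain ⟨K, hK⟩ := h.gard_AH (k := 0)
    refine ⟨|K| * (‖NH' F A 0‖ + 1), by positivity, fun u => (hK u).trans ?_⟩
    rw [mul_assoc]
    refine mul_le_mul (le_abs_self K) ?_ (by positivity) (abs_nonneg K)
    have h1 := (NH' F A 0).le_opNorm (NH F A 0 (AH F A 0 u))
    rw [h.NH'_NH, ← norm_Ψ (NH F A 0 _), ← eA] at h1
    have h2 := mul_le_mul_of_nonneg_left (norm_add_le (TH F A.p u)
      (cp (LH F A 0) (Ψ F.toPre 1 A.p u))) (norm_nonneg (NH' F A 0))
    rw [eI, norm_Ψ]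
    change ‖AH F A 0 u‖ + ‖(cylP F.toPre).incl 1 0 (pc A.p) u‖ ≤ _
    nlinarith [norm_nonneg (NH' F A 0), norm_nonneg (TH F A.p u),
      norm_nonneg (cp (LH F A 0) (Ψ F.toPre 1 A.p u)),
      norm_nonneg ((cylP F.toPre).incl 1 0 (pc A.p) u)]
  · have c1 : Sm (IC I) fun x : Y × ℝ => b x.2 := sm_snd h1
    have c2 : HasCompactSupport fun x : Y × ℝ => b x.2 :=
      HasCompactSupport.intro (isCompact_univ.prod h2.isCompact) fun x hx =>
        image_eq_zero_of_notMem_tsupport fun h => hx ⟨trivial, h⟩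
    refine (((Cq.zero (Cht98.rellich_smul (F := cylP F.toPre) (q := pc A.p) c1 c2
      zero_lt_one)).left (Ψ F.toPre 0 A.p)).congr (D := 0) (fun u => ?_) fun u => by simp).cpt
    simp only [ContinuousLinearMap.comp_apply]
    rw [Ψ_smul (Cb_of_hcs c1 c2), ← eI, ma_ma, mul_one, ContinuousLinearMap.id_comp]

/-- **Spectral flow on the cross-section.** -/
theorem isSF {σ σ' : ℝ →ᵇ ℝ} {r : ℝ} (hσ : Stp σ σ' r) :
    Crt72.SF (F.incl 1 0 A.p) (LH F A 0) (SymA _)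
      (sf (F.incl 1 0 A.p) (LH F A 0) (Ψ F.toPre 1 A.p) (TH F A.p) σ) :=
  h.cylD.isSF (Cht98.rellich zero_lt_one) (h.frL 0) hσ

/-- the unitary `L²(q) ≃ L²(ℝ, L²(p))` as an equivalence -/
def U : (cylP F.toPre).H 0 (pc A.q) ≃L[ℝ] Lam (F.H 0 A.p) :=
  (ContinuousLinearEquiv.equivOfInverse (NH F A 0) (NH' F A 0) h.NH'_NH h.NH_NH').trans
    (Ψe F.toPre A.p).toContinuousLinearEquiv

theorem U_apply (x : (cylP F.toPre).H 0 (pc A.q)) : h.U x = Ψ F.toPre 0 A.p (NH F A 0 x) := rfl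

/-- a term of order zero, seen in `L²(ℝ, L²(p))` -/
def KL (K : (cylP F.toPre).H 0 (pc A.p) →L[ℝ] (cylP F.toPre).H 0 (pc A.q)) :
    Lam (F.H 0 A.p) →L[ℝ] Lam (F.H 0 A.p) :=
  (h.U : _ →L[ℝ] _) ∘L K ∘L ((Ψe F.toPre A.p).symm.toContinuousLinearEquiv : _ →L[ℝ] _)

theorem KL_Ψ (K : (cylP F.toPre).H 0 (pc A.p) →L[ℝ] (cylP F.toPre).H 0 (pc A.q))
    (x : (cylP F.toPre).H 0 (pc A.p)) : h.KL K (Ψ F.toPre 0 A.p x) = h.U (K x) :=
  congrArg (fun z => h.U (K z)) ((Ψe F.toPre A.p).symm_apply_apply x)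

/-- `A + K = U⁻¹ (∂_t + L + K')` -/
theorem U_A (K : (cylP F.toPre).H 0 (pc A.p) →L[ℝ] (cylP F.toPre).H 0 (pc A.q)) :
    (h.U : _ →L[ℝ] _) ∘L (AH F A 0 + K ∘L (cylP F.toPre).incl 1 0 (pc A.p)) =
      Dz (F.incl 1 0 A.p) (LH F A 0) (Ψ F.toPre 1 A.p) (TH F A.p) (h.KL K) :=
  ContinuousLinearMap.ext fun x => by
    rw [Dz_apply, ← Ψ_incl zero_le_one, h.KL_Ψ]
    exact (map_add h.U _ _).trans (congrArg (· + _) (h.Ψ_AH x))

theorem fr_iff (K : (cylP F.toPre).H 0 (pc A.p) →L[ℝ] (cylP F.toPre).H 0 (pc A.q)) {n : ℤ} :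
    Fred93.Fr (AH F A 0 + K ∘L (cylP F.toPre).incl 1 0 (pc A.p)) n ↔
      Fred93.Fr (Dz (F.incl 1 0 A.p) (LH F A 0) (Ψ F.toPre 1 A.p) (TH F A.p) (h.KL K)) n := by
  rw [← h.U_A]
  exact ⟨fun H => ((Fred93.Fr.equiv h.U).comp H).cast (by simp),
    fun H => (((Fred93.Fr.equiv h.U.symm).comp H).cast (by simp)).congr fun x => by simp⟩

theorem bij_iff (K : (cylP F.toPre).H 0 (pc A.p) →L[ℝ] (cylP F.toPre).H 0 (pc A.q)) :
    Bijective (AH F A 0 + K ∘L (cylP F.toPre).incl 1 0 (pc A.p) :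
      (cylP F.toPre).H 1 (pc A.p) →L[ℝ] (cylP F.toPre).H 0 (pc A.q)) ↔
      Bijective (Dz (F.incl 1 0 A.p) (LH F A 0) (Ψ F.toPre 1 A.p) (TH F A.p) (h.KL K)) := by
  rw [← h.U_A]
  exact (Bijective.of_comp_iff' h.U.bijective _).symm

end CyO

end Crest.Agent.X212.Cyf70
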