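import Crest.Agent.X212.Cyf70.Kh
import Crest.Agent.X212.Nk89.Lax
import Crest.Agent.X212.Sob92.Wk

-- ▼ part X212/Cyf70/Ks
section

/-!
# Row 212, CYLF (helper70): the slice part of the Hessian
-/

set_option autoImplicit false
set_option linter.unusedSectionVars false
set_option linter.unusedSimpArgs false
noncomputable section
open scoped Manifold ContDiff Topology InnerProductSpace
open MeasureTheory Set Function Filter Real

namespace Crest.Agent.X212.Cyf70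
open An An.Pre Map77 Sob92 Nd18 Dec35 Rf65
open Neck67 (up dn cS)
open Ell97 (UB)

theorem hasDerivAt_approx {V : Type*} [NormedAddCommGroup V] [NormedSpace ℝ V] [CompleteSpace V]
    {f : ℝ → V} {g : ℕ → ℝ → V} {d : ℕ → V} {η : ℕ → ℝ} (hg : ∀ n, HasDerivAt (g n) (d n) 0)
    (hη : Tendsto η atTop (𝓝 0)) (h : ∀ n ε, |ε| ≤ 1 → ‖f ε - g n ε‖ ≤ η n * |ε|) :
    HasDerivAt f (deriv f 0) 0 ∧ ∀ n, ‖deriv f 0 - d n‖ ≤ η n := by
  have h0 : ∀ n, f 0 = g n 0 := fun n => by simpa [sub_eq_zero] using h n 0 (by simp)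
  have h1 : ∀ n, ∀ᶠ t in 𝓝[≠] (0 : ℝ),
      ‖t⁻¹ • (f (0 + t) - f 0) - t⁻¹ • (g n (0 + t) - g n 0)‖ ≤ η n := fun n => by
    filter_upwards [self_mem_nhdsWithin,
      mem_nhdsWithin_of_mem_nhds (Metric.closedBall_mem_nhds (0 : ℝ) one_pos)] with t ht h1
    rw [← smul_sub, h0 n, sub_sub_sub_cancel_right, zero_add, norm_smul, norm_inv, Real.norm_eq_abs,
      inv_mul_le_iff₀ (abs_pos.2 ht), mul_comm]
    exact h n t (by simpa using h1)
  have h2 := fun n => hasDerivAt_iff_tendsto_slope_zero.1 (hg n)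
  obtain ⟨z, hz⟩ : ∃ z, Tendsto (fun t : ℝ => t⁻¹ • (f (0 + t) - f 0)) (𝓝[≠] 0) (𝓝 z) := by
    refine cauchy_map_iff_exists_tendsto.1 (Metric.cauchy_iff.2 ⟨inferInstance, fun ε hε => ?_⟩)
    obtain ⟨n, hn⟩ := (hη.eventually_lt_const (show 0 < ε / 4 by positivity)).exists
    refine ⟨Metric.ball (d n) (ε / 2), mem_map.2 ?_, fun x hx y hy =>
      (dist_triangle_right _ _ (d n)).trans_lt (by linarith [Metric.mem_ball.1 hx, Metric.mem_ball.1 hy])⟩
    filter_upwards [h1 n, (h2 n).eventually (Metric.ball_mem_nhds _ (show 0 < ε / 4 by positivity))]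
      with t a b
    rw [← dist_eq_norm] at a
    exact (dist_triangle _ _ _).trans_lt ((add_lt_add_of_le_of_lt (a.trans hn.le) b).trans_eq (by ring))
  have h3 := hasDerivAt_iff_tendsto_slope_zero.2 hz
  rw [h3.deriv]
  exact ⟨h3, fun n => le_of_tendsto (hz.sub (h2 n)).norm (h1 n)⟩

theorem exists_slice {X : Type*} [NormedAddCommGroup X] [InnerProductSpace ℝ X] {G : Lam X}
    {g : ℝ → X} (h : R G g) {L : ℝ} (hL : 0 < L) : ∃ t, |t| ≤ L ∧ L * ‖g t‖ ^ 2 ≤ ‖G‖ ^ 2 := by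
  have i := h.integrable h
  obtain ⟨t, ht, h1⟩ := exists_le_setAverage (μ := volume) (s := Icc (-L) L) (by simpa using hL)
    (by simp) i.integrableOn
  refine ⟨t, abs_le.2 ht, ?_⟩
  rw [setAverage_eq, Real.volume_real_Icc_of_le (by linarith), smul_eq_mul,
    le_inv_mul_iff₀ (by linarith), real_inner_self_eq_norm_sq] at h1
  have h2 := setIntegral_le_integral (s := Icc (-L) L) i (ae_of_all _ fun _ => real_inner_self_nonneg)
  rw [← h.inner h, real_inner_self_eq_norm_sq] at h2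
  nlinarith [sq_nonneg ‖g t‖]

theorem int_sq_le {f : ℝ → ℝ} {c L : ℝ} (hL : 0 ≤ L) (h1 : ∀ t, |f t| ≤ c)
    (h2 : ∀ t, L < |t| → f t = 0) : ∫ t, f t ^ 2 ≤ c ^ 2 * (2 * L) := by
  rw [← setIntegral_eq_integral_of_forall_compl_eq_zero (s := Icc (-L) L) fun t ht => by
    rw [h2 t (not_le.1 fun h => ht (abs_le.1 h))]; simp]
  refine (Real.le_norm_self _).trans ((norm_setIntegral_le_of_norm_le_const (C := c ^ 2)
    measure_Icc_lt_top fun t _ => ?_).trans_eq ?_)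
  · rw [Real.norm_eq_abs, abs_pow]; exact pow_le_pow_left₀ (abs_nonneg _) (h1 t) 2
  · rw [Real.volume_real_Icc_of_le (by linarith)]; ring

/-- slow cut-off functions -/
def slo (n : ℕ) : ℝ → ℝ := up (-2 * (n + 1)) (n + 1) * dn (2 * (n + 1)) (n + 1)

theorem one_le_succ (n : ℕ) : (1 : ℝ) ≤ n + 1 := le_add_of_nonneg_left n.cast_nonneg

theorem sm_slo (n : ℕ) : Neck67.Sm (slo n) :=
  (Neck67.sm_up (one_le_succ n) _).mul (Neck67.sm_dn (one_le_succ n) _)

theorem slo_one {n : ℕ} {t : ℝ} (h : |t| ≤ n + 1) : slo n t = 1 := by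
  have := abs_le.1 h
  rw [slo, Pi.mul_apply, Neck67.up_one (by positivity) (by linarith),
    Neck67.dn_one (by positivity) (by linarith), mul_one]

theorem slo_zero (n : ℕ) (t : ℝ) (h : 2 * ((n : ℝ) + 1) < |t|) : slo n t = 0 := by
  rcases lt_abs.1 h with h | h
  · rw [slo, Pi.mul_apply, Neck67.dn_zero (by positivity) h.le, mul_zero]
  · rw [slo, Pi.mul_apply, Neck67.up_zero (by positivity) (by linarith), zero_mul]

theorem hcs_slo (n : ℕ) : HasCompactSupport (slo n) :=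
  .intro (isCompact_Icc (a := -(2 * ((n : ℝ) + 1))) (b := 2 * (n + 1))) fun t ht =>
    slo_zero n t (not_le.1 fun h => ht (abs_le.1 h))

theorem bd_slo (k n : ℕ) : Neck67.Bd k (slo n) (2 ^ k * cS k * cS k) :=
  .mul (Neck67.sm_up (one_le_succ n) _).cd (Neck67.sm_dn (one_le_succ n) _).cd
    (Neck67.bd_up k (one_le_succ n) _).of_succ (Neck67.bd_dn k (one_le_succ n) _).of_succ

theorem bd_dslo (n : ℕ) : Neck67.Bd 0 (deriv (slo n)) (2 * (((n : ℝ) + 1)⁻¹ * cS 0)) := fun t => by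
  rw [slo, deriv_mul ((Neck67.sm_up (one_le_succ n) _).diff t) ((Neck67.sm_dn (one_le_succ n) _).diff t)]
  have h1 := abs_le.1 (Neck67.bd_deriv_up 0 (one_le_succ n) (-2 * (n + 1)) t)
  have h2 := abs_le.1 (Neck67.bd_deriv_dn 0 (one_le_succ n) (2 * (n + 1)) t)
  have h3 := Neck67.up_mem (-2 * (n + 1)) (n + 1) t
  have h4 := Neck67.dn_mem (2 * (n + 1)) (n + 1) t
  rw [abs_le]; constructor <;> nlinarith

theorem deriv_zero {f : ℝ → ℝ} {L : ℝ} (h : ∀ t, L < |t| → f t = 0) (t : ℝ) (ht : L < |t|) :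
    deriv f t = 0 :=
  (EventuallyEq.deriv_eq (f := fun _ => 0) (((isOpen_lt continuous_const continuous_abs).eventually_mem
    ht).mono h)).trans (deriv_const _ _)

theorem tendsto_ex {γ : ℝ} (hγ : 0 < γ) (K a : ℝ) {b : ℝ} (hb : 0 < b) :
    Tendsto (fun n : ℕ => K * exp (γ * (a - b * n))) atTop (𝓝 0) := by
  simpa [sub_eq_add_neg] using (tendsto_exp_atBot.comp ((tendsto_atBot_add_const_left _ a
    (tendsto_neg_atTop_atBot.comp (tendsto_natCast_atTop_atTop.const_mul_atTop hb))).const_mul_atBot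
      hγ)).const_mul K

theorem norm_sc2 {X Z : Type} [NormedAddCommGroup X] [InnerProductSpace ℝ X] [NormedAddCommGroup Z]
    [InnerProductSpace ℝ Z] (v : P2 X Z) : ‖sc2 X Z 2 1 v‖ ≤ 2 * ‖v‖ := by
  refine (pow_le_pow_iff_left₀ (norm_nonneg _) (by positivity) two_ne_zero).1 ?_
  rw [mul_pow, ← real_inner_self_eq_norm_sq, ← real_inner_self_eq_norm_sq, inner2, inner2]
  simp only [f2_sc2, s2_sc2, real_inner_smul_left, real_inner_smul_right]
  nlinarith [real_inner_self_nonneg (x := s2 X Z v)]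

section gen
variable {E : Type} [NormedAddCommGroup E] [NormedSpace ℝ E] [FiniteDimensional ℝ E]
  [MeasurableSpace E] [BorelSpace E]
  {HM : Type} [TopologicalSpace HM] {I : ModelWithCorners ℝ E HM} [I.Boundaryless]
  {M : Type} [TopologicalSpace M] [ChartedSpace HM M] [IsManifold I ∞ M] [MeasurableSpace M]
  [T2Space M] [BorelSpace M] [SecondCountableTopology M] [CompactSpace M] {ι : Type} [Fintype ι]
  {V : Type} [NormedAddCommGroup V] [InnerProductSpace ℝ V] {F : Pre I M ι}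

theorem D_ten_none {f : ℝ → ℝ} {b : M → V} (hf : ContDiff ℝ ∞ f) (hb : Sm I b) :
    (cylP F).D none (fun x => f x.2 • b x.1) = fun x => deriv f x.2 • b x.1 := funext fun x => by
  rw [D_none F (u := fun x => f x.2 • b x.1) ((sm_snd hf).smul (sm_fst hb))]
  exact deriv_smul_const (hf.differentiable (by simp) x.2) (b x.1)

theorem D_ten_some {f : ℝ → ℝ} {b : M → V} (hf : ContDiff ℝ ∞ f) (hb : Sm I b) (a : ι) :
    (cylP F).D (some a) (fun x => f x.2 • b x.1) = fun x => f x.2 • F.D a b x.1 := funext fun x => by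
  rw [D_some F (u := fun x => f x.2 • b x.1) ((sm_snd hf).smul (sm_fst hb))]
  exact congrFun (F.D_smul hb (f x.2) a) x.1

/-- Sobolev norms of tensor products -/
theorem ip_ten {c L : ℝ} (hL : 0 ≤ L) (k : ℕ) : ∀ {f : ℝ → ℝ} {b : M → V}, ContDiff ℝ ∞ f → Sm I b →
    Neck67.Bd k f c → (∀ t, L < |t| → f t = 0) →
    (cylP F).ip k (fun x => f x.2 • b x.1) (fun x => f x.2 • b x.1) ≤
      2 ^ k * (c ^ 2 * (2 * L)) * F.ip k b b := by
  have := F.fin
  have z : ∀ {f : ℝ → ℝ} (b : M → V), (∀ t, |f t| ≤ c) → (∀ t, L < |t| → f t = 0) →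
      ∫ x, ⟪f x.2 • b x.1, f x.2 • b x.1⟫_ℝ ∂(cylP F).μ ≤ c ^ 2 * (2 * L) * ∫ y, ⟪b y, b y⟫_ℝ ∂F.μ :=
    fun {f} b h1 h2 => by
      have e : ∀ x : M × ℝ, ⟪f x.2 • b x.1, f x.2 • b x.1⟫_ℝ = ⟪b x.1, b x.1⟫_ℝ * f x.2 ^ 2 :=
        fun x => by rw [real_inner_smul_left, real_inner_smul_right]; ring
      simp only [e]
      rw [cylP_μ, integral_prod_mul (fun y => ⟪b y, b y⟫_ℝ) fun t => f t ^ 2, mul_comm]
      exact mul_le_mul_of_nonneg_right (int_sq_le hL h1 h2)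
        (integral_nonneg fun _ => real_inner_self_nonneg)
  induction k with
  | zero => exact fun _ _ h1 h2 => by rw [pow_zero, one_mul]; exact z _ h1 h2
  | succ k ih =>
    intro f b hf hb h1 h2
    have h3 := ih (Neck67.cd_deriv hf) hb h1.2 (deriv_zero h2)
    have h4 := Finset.sum_le_sum fun a (_ : a ∈ Finset.univ) => ih hf (F.sm_D hb a) h1.of_succ h2
    have h5 := z b h1.1 h2
    have h6 : F.ip k b b ≤ F.ip (k + 1) b b := by simp only [ip_eq]; exact n2_mono k.le_succ b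
    have h7 : 0 ≤ c ^ 2 * (2 * L) := by positivity
    have h8 : c ^ 2 * (2 * L) * F.ip 0 b b ≤ 2 ^ k * (c ^ 2 * (2 * L)) * F.ip 0 b b :=
      mul_le_mul_of_nonneg_right (le_mul_of_one_le_left h7 (one_le_pow₀ one_le_two)) (F.ip_nonneg 0 b)
    have h9 := mul_le_mul_of_nonneg_left h6 (show 0 ≤ 2 ^ k * (c ^ 2 * (2 * L)) by positivity)
    rw [← Finset.mul_sum] at h4
    rw [ip, Fintype.sum_option, D_ten_none hf hb]
    simp only [D_ten_some hf hb]
    have e : F.ip (k + 1) b b = F.ip 0 b b + ∑ a, F.ip k (F.D a b) (F.D a b) := rfl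
    rw [e] at h9 ⊢
    change _ ≤ _ * F.ip 0 b b at h5
    rw [pow_succ]; linarith

variable {W : Type} [NormedAddCommGroup W] [InnerProductSpace ℝ W] [FiniteDimensional ℝ V]
  [FiniteDimensional ℝ W] {G : Fr I M ι} {A : Op M (Option ι) V W}

/-- the cut-off invariant variation -/
def cutY {p : M → V →L[ℝ] V} (n : ℕ) (s : Sec I p) : Sec (IC I) (pc p) :=
  tens (sm_slo n).cd (hcs_slo n) s

variable (G A) in
/-- an operator on the cylinder and its action on invariant sections -/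
structure SD (T : Sec (IC I) (pc A.p) → M × ℝ → V) (k : Sec I A.p → M → V)
    (K : (cylP G.toPre).H 0 (pc A.p) →L[ℝ] (cylP G.toPre).H 0 (pc A.p)) : Prop where
  o : CyO G A
  sm : ∀ s, Sm (IC I) (T s)
  pt : ∀ s z, A.p z.1 (T s z) = T s z
  pk : ∀ s y, A.p y (k s y) = k s y
  le : ∀ s, ∃ γ > 0, ∃ C ≥ 0, ∀ (n : ℕ) (t : ℝ) y, |t| ≤ (n + 1) / 2 →
    ‖k s y - T (cutY n s) (y, t)‖ ≤ C * exp (γ * (1 / 2 - 1 / 2 * n))
  lv : ∀ j, 8 ≤ j → ∃ K : (cylP G.toPre).H j (pc A.p) →L[ℝ] (cylP G.toPre).H j (pc A.p),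
    ∀ s, Is (cylP G.toPre) j _ (K ((cylP G.toPre).toH j _ s)) (T s)
  l0 : ∀ s, Is (cylP G.toPre) 0 _ (K ((cylP G.toPre).toH 0 _ s)) (T s)
  tk : ∃ d C, TK (KZ K) d C

namespace SD
variable {T : Sec (IC I) (pc A.p) → M × ℝ → V} {k : Sec I A.p → M → V}
  {K : (cylP G.toPre).H 0 (pc A.p) →L[ℝ] (cylP G.toPre).H 0 (pc A.p)} (h : SD G A T k K)
  (s : Sec I A.p)
include h

/-- slices -/
def sli (n : ℕ) (t : ℝ) : Sec I A.p :=
  ⟨fun y => T (cutY n s) (y, t), sm_slice_fst (h.sm _) t, .of_compactSpace _, fun y => h.pt _ (y, t)⟩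

theorem cont : Continuous (k s) := by
  obtain ⟨γ, hγ, C, -, H⟩ := h.le s
  refine TendstoUniformly.continuous (F := fun n => (h.sli s n 0).1) (p := atTop)
    (Metric.tendstoUniformly_iff.2 fun ε hε => ?_)
    (Frequently.of_forall fun n => (h.sli s n 0).2.1.continuous)
  filter_upwards [(tendsto_ex hγ C _ one_half_pos).eventually_lt_const hε] with n hn y
  exact (dist_eq_norm _ _).trans_lt ((H n 0 y (by rw [abs_zero]; positivity)).trans_lt hn)

theorem exists_k : ∃ a : G.H 0 A.p, Is G.toPre 0 _ a (k s) ∧ ∀ t : ℕ → ℝ,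
    (∀ n, |t n| ≤ (n + 1) / 2) → Tendsto (fun n => G.toH 0 _ (h.sli s n (t n))) atTop (𝓝 a) := by
  have := FiniteDimensional.complete ℝ V
  have := G.fin
  have g := h.o.good_sop.choose_spec
  obtain ⟨a, ha⟩ := exists_Is_zero (F := G.toPre) (p := A.p) ⟨_, g.p.cb⟩ g.p.idem
    ((h.cont s).memLp_of_hasCompactSupport (.of_compactSpace _)) (ae_of_all _ (h.pk s))
  obtain ⟨γ, hγ, C, hC, H⟩ := h.le s
  refine ⟨a, ha, fun t ht => tendsto_iff_norm_sub_tendsto_zero.2 (squeeze_zero (fun _ => norm_nonneg _)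
    (fun n => ?_) (((tendsto_ex hγ C (1 / 2) one_half_pos).mul_const
      (G.nrm 0 fun _ => (1 : ℝ))).trans_eq (by rw [zero_mul])))⟩
  rw [norm_sub_rev, ← incl_self (_ - _), (ha.sub (Is.toH _)).norm_zero]
  exact nrm0_le (by positivity) (memLp_const 1) fun y => by
    rw [norm_one, mul_one]; exact H n (t n) y (ht n)

omit s in
theorem lev {j : ℕ} (hj : 8 ≤ j) : ∃ C ≥ 0, ∀ s : Sec I A.p, ∃ z : G.H j A.p,
    ‖z‖ ≤ C * G.nrm j s.1 ∧ Is G.toPre j _ z (k s) := by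
  have := FiniteDimensional.complete ℝ V
  obtain ⟨K, hK⟩ := h.lv j hj
  refine ⟨√(‖K‖ ^ 2 * (2 ^ j * (2 ^ j * cS j * cS j) ^ 2 * 8)), sqrt_nonneg _, fun s => ?_⟩
  choose t h1 h2 using fun n : ℕ => exists_slice (R_Ψ' (hK (cutY n s)) (h.sm _) (h.pt _))
    (L := (n + 1) / 2) (by positivity)
  obtain ⟨a, ha, H⟩ := h.exists_k s
  obtain ⟨z, hz, e⟩ := exists_weak_lim (l := atTop) (y := fun n => G.toH j _ (h.sli s n (t n)))
    (C := √(‖K‖ ^ 2 * (2 ^ j * (2 ^ j * cS j * cS j) ^ 2 * 8)) * G.nrm j s.1)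
    (Eventually.of_forall fun n => by
      have h3 := pow_le_pow_left₀ (norm_nonneg _) ((ContinuousLinearMap.le_of_opNorm_le _ norm_Ψ_le
        _).trans ((one_mul _).trans_le (K.le_opNorm ((cylP G.toPre).toH j _ (cutY n s))))) 2
      have h4 := mul_le_mul_of_nonneg_left (ip_ten (F := G.toPre) (L := 2 * (n + 1)) (by positivity) j
        (sm_slo n).cd s.2.1 (bd_slo j n) (slo_zero n)) (sq_nonneg ‖K‖)
      rw [mul_pow, ← real_inner_self_eq_norm_sq ((cylP G.toPre).toH j _ _), inner_toH] at h3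
      rw [nrm, ← sqrt_mul (by positivity)]
      refine le_sqrt_of_sq_le (le_of_mul_le_mul_left ((h2 n).trans (h3.trans (h4.trans_eq ?_)))
        (by positivity))
      ring)
  refine ⟨z, hz, Is.of_incl (Nat.zero_le j) ?_⟩
  rwa [e (G.incl j 0 _) a (by simpa only [incl_toH (Nat.zero_le j)] using H t h1)]

theorem sm_k : Sm I (k s) := by
  have := FiniteDimensional.complete ℝ V
  obtain ⟨a, ha, -⟩ := h.exists_k s
  obtain ⟨u, rfl⟩ := Ell97.sec_of_all h.o.tameY.choose_spec (x := a) fun j _ => by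
    obtain ⟨z, -, hz⟩ := (h.lev (j := j + 8) (by omega)).choose_spec.2 s
    exact ⟨_, Is.unique ((hz.incl (by omega)).incl (Nat.zero_le j)) ha⟩
  have := openPos G.toPre
  rw [← (Continuous.ae_eq_iff_eq G.μ u.2.1.continuous (h.cont s)).1 ((Is.toH u).symm.trans ha)]
  exact u.2.1

/-- the operator on the cross-section -/
def kS : Sec I A.p := ⟨k s, h.sm_k s, .of_compactSpace _, h.pk s⟩

/-- **the slice part** -/
theorem kk_toH : kk (KZ K) (G.toH 0 _ s) = G.toH 0 _ (h.kS s) := by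
  have := FiniteDimensional.complete ℝ V
  obtain ⟨d, C, hT⟩ := h.tk
  obtain ⟨a, ha, H⟩ := h.exists_k s
  have r := fun n : ℕ => (KZ_Ψ (K := K) _ ▸ R_Ψ' (h.l0 (cutY n s)) (h.sm _) (h.pt _)).sub
    ((R_Ψ (cutY n s)).cp (kk (KZ K)))
  choose t h1 h2 using fun n => exists_slice (r n) one_half_pos
  rw [← ha.unique (Is.toH (h.kS s))]
  refine tendsto_nhds_unique (tendsto_iff_norm_sub_tendsto_zero.2 ?_)
    (H t fun n => (h1 n).trans (by linarith [one_le_succ n]))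
  obtain ⟨c, hc⟩ : ∃ c, c = cM d * C + C * (mp * mp + mp) := ⟨_, rfl⟩
  refine squeeze_zero (fun _ => norm_nonneg _) (fun n => le_sqrt_of_sq_le ?_) (by
    simpa using (tendsto_inv_atTop_nhds_zero_nat.comp (tendsto_add_atTop_nat 1)).const_mul
      (c ^ 2 * (32 * cS 0 ^ 2) * G.ip 0 s.1 s.1) |>.sqrt)
  have l := h.o.cylD.lip ((cylP G.toPre).toH 1 _ (cutY n s))
  rw [← Ψ_incl zero_le_one, incl_toH zero_le_one, ContinuousLinearMap.comp_apply, DtH_toH, norm_Ψ]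
    at l
  have h3 := pow_le_pow_left₀ (norm_nonneg _) (hc ▸ hT.est l) 2
  have h4 := mul_le_mul_of_nonneg_left (ip_ten (F := G.toPre) (L := 2 * (n + 1)) (by positivity) 0
    (sm_slo n).deriv.cd s.2.1 (bd_dslo n) (deriv_zero (slo_zero n))) (sq_nonneg c)
  rw [mul_pow, ← real_inner_self_eq_norm_sq ((cylP G.toPre).toH 0 _ _), inner_toH,
    show (dt G.toPre (cutY n s)).1 = _ from D_ten_none (sm_slo n).cd s.2.1] at h3
  have h5 := (h2 n).trans (h3.trans h4)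
  rw [show slc (cutY n s) (t n) = slo n (t n) • s from rfl,
    slo_one ((h1 n).trans (by linarith [one_le_succ n])), one_smul] at h5
  refine le_of_mul_le_mul_left (h5.trans_eq ?_) one_half_pos
  field_simp; ring

omit s in
theorem kk_lev (j : ℕ) : ∃ T : G.H j A.p →L[ℝ] G.H j A.p,
    ∀ u, G.incl j 0 _ (T u) = kk (KZ K) (G.incl j 0 _ u) := by
  have := FiniteDimensional.complete ℝ V
  have o := h.o
  have e := h.kk_toH
  let L : Sec I A.p →ₗ[ℝ] Sec I A.p :=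
    ⟨⟨h.kS, fun s t => Ell97.toH_inj G 0 _ (by simp only [← e, map_add])⟩,
      fun a s => Ell97.toH_inj G 0 _ (by simp only [← e, map_smul, RingHom.id_apply])⟩
  let P := Ell97.par o.tameY.choose_spec o.good_sop.choose_spec o.cliff
  have eP : ∀ j (x : G.H j (sop A).p), Ell97.dn0 (X := fun k => G.H k (sop A).p) P.i j x =
      G.incl j 0 _ x := fun j x => Ell97.dn0_incl (sop A).p j x
  obtain ⟨T, hT⟩ := Nk89.exists_all P P (kk (KZ K)) (j₀ := 8) (fun j hj => by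
    obtain ⟨C, hC, H⟩ := h.lev hj
    obtain ⟨T, hT, -⟩ := exists_ext (F := G.toPre) (k := j) (G.toH j _ ∘ₗ L) hC fun s => by
      obtain ⟨z, h1, h2⟩ := H s
      exact (h2.unique (Is.toH (h.kS s)) ▸ h1 :)
    refine ⟨T, fun u => ?_⟩
    rw [eP, eP]
    induction u using H_ind with
    | hP => exact isClosed_eq (by fun_prop) (by fun_prop)
    | h s => rw [hT, LinearMap.comp_apply, incl_toH j.zero_le, incl_toH j.zero_le, e]; rfl) j
  exact ⟨T, fun u => by rw [← eP, ← eP]; exact hT u⟩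

omit s in
/-- the kernel is smooth -/
theorem ker_smooth {v : G.H 1 A.p} (hv : LH G A 0 v + kk (KZ K) (G.incl 1 0 _ v) = 0) :
    ∃ w : Sec I A.p, G.toH 1 _ w = v := by
  have := FiniteDimensional.complete ℝ V
  have o := h.o
  refine Ell97.sec_of_all o.tameY.choose_spec fun j hj => ?_
  induction j, hj using Nat.le_induction with
  | base => exact ⟨v, incl_self v⟩
  | succ j hj ih =>
    obtain ⟨y, rfl⟩ := ih
    obtain ⟨T, hT⟩ := h.kk_lev j
    obtain ⟨z, hz, -⟩ := Ell97.reg_up o.tameY.choose_spec o.good_sop.choose_spec o.cliffL j.zero_le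
      (x := G.incl j 1 _ y) (w := -T y) (by
        rw [map_neg, hT, ← incl_incl hj zero_le_one]; exact eq_neg_of_add_eq_zero_left hv)
    exact ⟨z, hz⟩

end SD

end gen

variable {E3 : Type} [NormedAddCommGroup E3] [NormedSpace ℝ E3] [FiniteDimensional ℝ E3]
  [MeasurableSpace E3] [BorelSpace E3]
  {H3 : Type} [TopologicalSpace H3] {I3 : ModelWithCorners ℝ E3 H3} [I3.Boundaryless]
  {Y : Type} [TopologicalSpace Y] [ChartedSpace H3 Y] [IsManifold I3 ∞ Y] [T2Space Y]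
  [MeasurableSpace Y] [BorelSpace Y] [SecondCountableTopology Y] [CompactSpace Y]
  {κ : Type} [Fintype κ] {lam : Type} [Fintype lam]
  {N : ND Y lam} {D : YD I3 Y κ lam} {β : YC Y κ lam}

theorem ub_slo : UB (fun _ : ℕ => D.Z.toPre) fun n x => slo n x.2 :=
  ⟨_, fun n => ⟨sm_snd (sm_slo n).cd, fun k => CB_snd k (sm_slo n).cd (bd_slo k n)⟩⟩

theorem ub_cb {X : Type} [NormedAddCommGroup X] [NormedSpace ℝ X] {f : Y × ℝ → X} (h : D.Z.Cb f) :
    UB (fun _ : ℕ => D.Z.toPre) fun _ => f := let ⟨C, h⟩ := h; ⟨C, fun _ => h⟩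

/-- the Hessian on bounded variations -/
theorem Kp.approx (h : Kp N D β) : ∃ γ > 0, ∀ {a : Cz β} {b : ℕ → Cz β}, Vb D β a →
    (∀ n, Vr D β (b n)) → UB (fun _ : ℕ => D.Z.toPre) b →
    (∀ (n : ℕ) (x : Y × ℝ), |x.2| < n → b n x = a x) → ∃ K ≥ 0, ∀ x,
      HD (fun ε : ℝ => gz N D β (ε • a) x) (hz N D β a x) ∧
      ∀ n : ℕ, ‖hz N D β a x - hz N D β (b n) x‖ ≤ K * exp (γ * (|x.2| - 1 * n)) := by
  obtain ⟨γ, hγ, k, H⟩ := h.p1
  refine ⟨γ, hγ, fun {a b} ha hb ⟨C, hC⟩ e => ?_⟩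
  obtain ⟨A, hA⟩ := ha.cb
  obtain ⟨K, hK⟩ := H (|A k| + |C k|)
  have cs : ∀ {u : Cz β} {c : ℝ} (ε : ℝ), Sm (IC I3) u → D.Z.CB k u c → D.Z.CB k (ε • u) (|ε| * c) :=
    fun ε hu hc w hw x => by
      rw [Prm93.Dw_smul ε w hu, Pi.smul_apply, norm_smul]
      exact mul_le_mul_of_nonneg_left (hc w hw x) (abs_nonneg _)
  have vb : ∀ (ε : ℝ) {u : Cz β}, Vb D β u → Vb D β (ε • u) := fun ε u hu =>
    ⟨Cb_smul (Cb_const ε) hu.cb, hu.tg.smul fun _ => ε⟩
  have := abs_nonneg (A k)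
  have := abs_nonneg (C k)
  refine ⟨|K| * (|A k| + |C k|), by positivity, fun x => hasDerivAt_approx
    (fun n => h.tw.der _ (hb n) x) (tendsto_ex hγ _ _ one_pos) fun n ε hε => ?_⟩
  have := abs_nonneg ε
  refine (hK (ε • a) (ε • b n) (vb ε ⟨⟨A, hA⟩, ha.tg⟩) (vb ε (vr_vb h.ok (hb n)))
    (CB_mono (cs ε hA.1 (CB_abs (hA.2 k))) (by nlinarith))
    (CB_mono (cs ε (hC n).1 (CB_abs ((hC n).2 k))) (by nlinarith)) x.2
    (|ε| * (|A k| + |C k|) * exp (γ * (|x.2| - 1 * n))) (by positivity) (fun s w hw y => ?_)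
      x.1).trans ((mul_le_mul_of_nonneg_right (le_abs_self K) (by positivity)).trans_eq (by ring))
  by_cases hs : |s| < n
  · rw [Prm93.Dw_congr w (v := (0 : ℝ) • a) (((isOpen_lt continuous_snd.abs
      (continuous_const (y := (n : ℝ)))).eventually_mem (x := (y, s)) hs).mono fun z hz => by
        simp only [Pi.sub_apply, Pi.smul_apply, e n z hz, sub_self, zero_smul])]
    exact (cs 0 hA.1 (hA.2 k) w hw _).trans (by rw [abs_zero, zero_mul]; positivity)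
  · rw [← smul_sub, sub_eq_add_neg a, mul_assoc _ (exp _), ← exp_add]
    refine (cs ε (hA.1.add (hC n).1.neg) (CB_add hA.1 (hC n).1.neg (CB_abs (hA.2 k))
      (CB_neg (hC n).1 ((hC n).2 k))) w hw _).trans (le_mul_of_one_le_right (by positivity)
        (one_le_exp ?_))
    nlinarith [abs_sub_abs_le_abs_sub s x.2]

variable (D β) in
/-- smooth variations on the cross-section -/
abbrev SY : Type := Sec I3 (AZ D β).p

theorem tg_fst (h : Hz N D β) (s : SY D β) : Tg D.B (cy β) fun x => s.1 x.1 :=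
  (tg_iff h).2 fun x => s.2.2.2 x.1

theorem vb_fst (h : Hz N D β) (s : SY D β) : Vb D β fun x => s.1 x.1 :=
  ⟨cb_fst (sm_fst s.2.1), tg_fst h s⟩

/-- a function as a section -/
def secY (h : Hz N D β) {b : Y → Cv (cy β)} (hb : Sm I3 b) (tb : Tg D.B (cy β) fun x => b x.1) :
    SY D β := ⟨b, hb, .of_compactSpace _, fun y => (tg_iff h).1 tb (y, 0)⟩

/-- rescaling of sections -/
def scY (h : Hz N D β) (a b : ℝ) (s : SY D β) : SY D β :=
  secY h (b := fun y => sc2 _ _ a b (s.1 y)) ((sc2 _ _ a b).contMDiff.comp s.2.1)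
    (tg_sc2 a b (tg_fst h s))

variable (N D β) in
/-- the rescaled Hessian on the cross-section -/
def kY (b : Y → Cv (cy β)) (y : Y) : Cv (cy β) := hs N D β (fun x => b x.1) (y, 0)

namespace Kp
variable (h : Kp N D β) (s : SY D β)
include h

theorem slice : ∃ γ > 0, ∃ K ≥ 0, ∀ x,
    HD (fun ε : ℝ => gz N D β (ε • fun x => s.1 x.1) x) (hz N D β (fun x => s.1 x.1) x) ∧
      ∀ n : ℕ, ‖hz N D β (fun x => s.1 x.1) x - hz N D β (cutY n s).1 x‖ ≤
        K * exp (γ * (|x.2| - 1 * n)) :=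
  let ⟨γ, hγ, H⟩ := h.approx
  ⟨γ, hγ, H (vb_fst h.toHz s) (fun n => vr_sec h.toHz (cutY n s))
    (Cls.smul (K := ub _) ub_slo (ub_cb (vb_fst h.toHz s).cb)) fun n x hx => by
      change slo n x.2 • _ = _
      rw [slo_one (by linarith), one_smul]⟩

theorem hz_fst (x : Y × ℝ) :
    hz N D β (fun x => s.1 x.1) x = hz N D β (fun x => s.1 x.1) (x.1, 0) := by
  simpa using (h.hz_shf (vb_fst h.toHz s) x.2 (x.1, 0)).symm

theorem hs_fst (x : Y × ℝ) : hs N D β (fun x => s.1 x.1) x = kY N D β s.1 x.1 :=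
  congrArg (sc2 _ _ 2 1) (h.hz_fst (scY h.toHz 2 1 s) x)

theorem pC_hz (x : Y × ℝ) : (mbd D.B (cy β).m).pC x (hz N D β (fun x => s.1 x.1) x) =
    hz N D β (fun x => s.1 x.1) x :=
  let ⟨_, _, _, _, H⟩ := h.slice s
  tg_of_der h.toHz (H x).1

theorem tg_kY : Tg D.B (cy β) fun x => kY N D β s.1 x.1 := by
  rw [← funext (h.hs_fst s)]; exact tg_sc2 2 1 (h.pC_hz (scY h.toHz 2 1 s))

theorem sli_le : ∃ γ > 0, ∃ C ≥ 0, ∀ (n : ℕ) (t : ℝ) y, |t| ≤ (n + 1) / 2 →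
    ‖kY N D β s.1 y - hs N D β (cutY n s).1 (y, t)‖ ≤ C * exp (γ * (1 / 2 - 1 / 2 * n)) := by
  obtain ⟨γ, hγ, K, hK, H⟩ := h.slice (scY h.toHz 2 1 s)
  refine ⟨γ, hγ, 2 * K, by positivity, fun n t y ht => ?_⟩
  have e : (fun z => sc2 _ _ 2 1 ((cutY n s).1 z)) = (cutY n (scY h.toHz 2 1 s)).1 :=
    funext fun z => map_smul (sc2 _ _ 2 1) (slo n z.2) (s.1 z.1)
  rw [← h.hs_fst s (y, t), mul_assoc, hs, hs, ← map_sub, e]
  exact (norm_sc2 _).trans (mul_le_mul_of_nonneg_left (((H (y, t)).2 n).trans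
    (mul_le_mul_of_nonneg_left (exp_le_exp.2 (mul_le_mul_of_nonneg_left (by linarith) hγ.le)) hK))
      two_pos.le)

omit s in
/-- **the slice data of the Hessian** -/
theorem sd (hd : Module.finrank ℝ E3 ≤ 3) {K : HZ D β 0 →L[ℝ] HZ D β 0} (hK : IsK N D β K) :
    SD D.F (AZ D β) (fun s => hs N D β s.1) (fun s => kY N D β s.1) K :=
  ⟨cyO_AZ h.toHz hd, fun s => (h.vr_hs (vr_sec h.toHz s)).fl.sm,
    fun s => (tg_iff h.toHz).1 (h.vr_hs (vr_sec h.toHz s)).tg,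
    fun s y => (tg_iff h.toHz).1 (h.tg_kY s) (y, 0), h.sli_le,
    fun _ hj => let ⟨K, hK⟩ := h.exists_K (.inr hj); ⟨K, fun s => hK _ _ (vr_sec h.toHz s) (Is.toH s)⟩,
    fun s => hK _ _ (vr_sec h.toHz s) (Is.toH s), h.tk hK⟩

end Kp

end Crest.Agent.X212.Cyf70
end
end

-- ▼ part X212/Cyf70/Kr

/-!
# Row 212, CYLF (helper70): the kernel of the operator on the cross-section
-/

set_option autoImplicit false
set_option linter.unusedSectionVars false
set_option linter.unusedSimpArgs false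
noncomputable section
open scoped Manifold ContDiff Topology InnerProductSpace
open MeasureTheory Set Function Filter Real

namespace Crest.Agent.X212.Cyf70
open An An.Pre Map77 Sob92 Nd18 Dec35 Rf65
open Wz78 (nab)

section gen
variable {E : Type} [NormedAddCommGroup E] [NormedSpace ℝ E] [FiniteDimensional ℝ E]
  [MeasurableSpace E] [BorelSpace E]
  {HM : Type} [TopologicalSpace HM] {I : ModelWithCorners ℝ E HM} [I.Boundaryless]
  {M : Type} [TopologicalSpace M] [ChartedSpace HM M] [IsManifold I ∞ M] [MeasurableSpace M]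
  [T2Space M] [BorelSpace M] [SecondCountableTopology M] {ι : Type} [Fintype ι]
  {V W : Type} [NormedAddCommGroup V] [InnerProductSpace ℝ V]
  [NormedAddCommGroup W] [InnerProductSpace ℝ W] {F : Fr I M ι}

theorem app_csmul (A : Op M ι V W) (c : ℝ) {u : M → V} (hu : Sm I u) (x : M) :
    A.app F (c • u) x = c • A.app F u x := by
  simp only [Op.app, Pre.op, F.D_smul hu, Pi.smul_apply, map_smul, smul_add, Finset.smul_sum]

theorem app_lin (A : Op M ι V W) (c : ℝ) {u v : M → V} (hu : Sm I u) (hv : Sm I v) (x : M) :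
    A.app F (u + c • v) x = A.app F u x + c • A.app F v x := by
  rw [Ell97.app_add (v := c • v) hu ((contMDiff_const (I' := 𝓘(ℝ, ℝ)) (c := c)).smul hv),
    app_csmul A c hv]

theorem app_congr (A : Op M ι V W) {u v : M → V} {x : M} (h : u =ᶠ[𝓝 x] v) :
    A.app F u x = A.app F v x := by
  simp only [Op.app, Pre.op, Pre.D_def, dv_congr h, h.self_of_nhds]

theorem sec_zero [FiniteDimensional ℝ V] {p : M → V →L[ℝ] V} {s : Sec I p}
    (H : ∫ y, ⟪s.1 y, s.1 y⟫_ℝ ∂F.μ = 0) : s = 0 :=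
  Ell97.toH_inj F 0 _ ((inner_self_eq_zero (𝕜 := ℝ).1 ((inner_toH F.toPre 0 p s s).trans H)).trans
    (map_zero _).symm)

theorem f2_ii (a : V) (b : W) : f2 V W (i1 V W a + i2 V W b) = a := by simp

theorem s2_ii (a : V) (b : W) : s2 V W (i1 V W a + i2 V W b) = b := by simp

section cfg
variable {lam : Type} [Fintype lam] {r n : ℕ} {B : Base M ι lam} {G : Geo I M ι lam}
  {c : Cfg M ι lam r} {l : ℝ} {u v : M → Cv c}

theorem fa_dg (ζ : M → c.m.A) (x : M) (a : ι) :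
    fa (dg F c l ζ x) a = -nab I F.e (c.m.adW c.W) a ζ x := by simp [dg]

theorem fp_dg (ζ : M → c.m.A) (x : M) : fp (dg F c l ζ x) = l • opL (ζ x) (c.Φ x) := by simp [dg]

theorem sc2_dg (ζ : M → c.m.A) (x : M) : sc2 _ _ 1 l (dg F c 1 ζ x) = dg F c l ζ x :=
  ext2 (by simp [dg]) (by simp [dg])

theorem dg_zero (x : M) : dg F c l (fun _ => 0) x = 0 :=
  ext2 (fm_ext fun a => by rw [fa_dg]; simp [nab, dv_const]) (by rw [fp_dg]; simp)

theorem par_of {ζ : M → c.m.A} (hl : l ≠ 0) (h : ∀ x, dg F c l ζ x = 0) (x : M) :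
    (∀ a, nab I F.e (c.m.adW c.W) a ζ x = 0) ∧ opL (ζ x) (c.Φ x) = 0 :=
  ⟨fun a => neg_eq_zero.1 ((fa_dg ζ x a).symm.trans (by rw [h, map_zero]; rfl)),
    (smul_eq_zero_iff_right hl).1 ((fp_dg ζ x).symm.trans (by rw [h, map_zero]))⟩

theorem i_sc2 (v : Cv c) : i1 _ _ (fa v) + i2 _ _ (l • fp v) = sc2 _ _ 1 l v :=
  ext2 (by simp) (by simp)

theorem sig_eq (u : M → Cv c) :
    sig B F c l u = ((dO B F c l).adj F).app F fun x => sc2 _ _ 1 l (u x) := by
  simp only [sig, i_sc2]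

theorem sig_lin (a : ℝ) (hu : Sm I u) (hv : Sm I v) (x : M) :
    sig B F c l (u + a • v) x = sig B F c l u x + a • sig B F c l v x := by
  rw [sig_eq, sig_eq, sig_eq, ← app_lin _ a (sm_clm _ hu) (sm_clm _ hv)]
  exact congrArg (Op.app _ _ · x) (funext fun z => by
    simp only [Pi.add_apply, Pi.smul_apply, map_add, map_smul])

variable (c) in
/-- the direction of the circle -/
def jC (x : M) : Cv c := i2 _ _ (c.m.J (c.Φ x))

theorem fa_jC (x : M) : fa (jC c x) = 0 := f2_i2 _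

theorem fp_jC (x : M) : fp (jC c x) = c.m.J (c.Φ x) := s2_i2 _

theorem sm_jC (h : c.Adm B G) : Sm I (jC c) := sm_clm (i2 (Fm ι c.m.A) c.m.V) (sm_clm c.m.J h.sm)

theorem tg_jC (h : c.Adm B G) : Tg B c (jC c) :=
  Tg.of (fun x => by rw [fa_jC, map_zero]) fun x => by
    rw [fp_jC, ← mul_apply_eq_comp, ← Wz78.J_pp h.ok, mul_apply_eq_comp, h.pos]

theorem hd_se (hB : B.OK I) (hG : G.OK B) (h : c.Adm B G) (τ : Pt M ι lam r n) (hu : Sm I u)
    (ht : Tg B c u) {x : M} {z : Ev c} (H : HD (fun ε : ℝ => te τ c (ε • u) x) z) :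
    HD (fun ε : ℝ => se B G τ c (ε • u) x) (lin B G.F c u x - z) := by
  have e : (fun ε : ℝ => se B G τ c (ε • u) x) = fun ε : ℝ => se B G τ c 0 x + ε • lin B G.F c u x +
      (ε * ε) • qd B c x (u x) (u x) - (te τ c (ε • u) x - te τ c 0 x) := funext fun ε => by
    rw [se_eq hB hG h τ (u := ε • u) ((contMDiff_const (I' := 𝓘(ℝ, ℝ)) (c := ε)).smul hu)
      (ht.smul fun _ => ε), lin, app_csmul _ ε hu]
    simp only [Pi.smul_apply, map_smul, _root_.smul_apply, smul_smul]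
  rw [e]
  simpa using ((((hasDerivAt_id' (0 : ℝ)).smul_const (lin B G.F c u x)).const_add
    (se B G τ c 0 x)).fun_add (((hasDerivAt_id' (0 : ℝ)).fun_mul (hasDerivAt_id' 0)).smul_const
      (qd B c x (u x) (u x)))).fun_sub (H.sub_const (te τ c 0 x))

theorem hd_eq {τ : Pt M ι lam r n} {x : M} (H : HD (fun ε : ℝ => se B G τ c (ε • u) x) 0) :
    HD (V := c.m.V) (fun ε => (vr c (fun x => ε • fa (u x)) fun x => ε • fp (u x)).eD G τ x) 0 ∧
    ∀ s, HD (V := c.m.A)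
      (fun ε => (vr c (fun x => ε • fa (u x)) fun x => ε • fp (u x)).eC B G τ x s) 0 := by
  have e1 := fun ε : ℝ => funext fun x => (map_smul fa ε (u x)).symm
  have e2 := fun ε : ℝ => funext fun x => (map_smul fp ε (u x)).symm
  refine ⟨?_, fun s => ?_⟩
  · have := (f2 _ _).hasFDerivAt.comp_hasDerivAt 0 H
    rw [map_zero] at this
    exact this.congr_of_eventuallyEq (.of_forall fun ε => (congrArg₂
      (fun a b => show c.m.V from (vr c a b).eD G τ x) (e1 ε) (e2 ε)).trans (f2_ii _ _).symm)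
  · have := (pj _ s ∘L s2 _ _).hasFDerivAt.comp_hasDerivAt 0 H
    rw [map_zero] at this
    exact this.congr_of_eventuallyEq (.of_forall fun ε => (congrArg₂
      (fun a b => show c.m.A from (vr c a b).eC B G τ x s) (e1 ε) (e2 ε)).trans
        (congrArg (fun z : Fm (ι × ι) c.m.A => z s) (s2_ii (V := c.m.V) (W := Fm (ι × ι) c.m.A)
          ((cf c (ε • u)).eD G τ x) ((cf c (ε • u)).eC B G τ x)).symm))

end cfg

variable [CompactSpace M] [FiniteDimensional ℝ V] [FiniteDimensional ℝ W]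
  {A : Op M (Option ι) V W}

theorem nab_some (A : Option ι → M × ℝ → V →L[ℝ] V) {ζ : M × ℝ → V} (h : Sm (IC I) ζ) (a : ι)
    (x : M × ℝ) : nab (IC I) (cyl F).e A (some a) ζ x =
      nab I F.e (fun a y => A (some a) (y, x.2)) a (fun y => ζ (y, x.2)) x.1 :=
  congrArg (· + _) (D_some F.toPre h a x)

theorem nab_none (A : Option ι → M × ℝ → V →L[ℝ] V) {ξ : M → V} (h : Sm I ξ) (x : M × ℝ) :
    nab (IC I) (cyl F).e A none (fun x => ξ x.1) x = A none x (ξ x.1) :=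
  (congrArg (· + _) (congrFun (D_none_fst F.toPre h) x)).trans (zero_add _)

theorem CyO.inner_σ (h : CyO F A) {y : M} {v : V} (hv : A.p y v = v) (w : V) :
    ⟪v, w⟫_ℝ = ⟪A.σ none y v, A.σ none y w⟫_ℝ := by rw [← inner_nu, h.nu_σ, hv]

theorem CyO.app_fst (h : CyO F A) {w : M → V} (hw : Sm I w) (x : M × ℝ) :
    (cyo A).app (cyl F) (fun x => w x.1) x = A.σ none x.1 ((sop A).app F w x.1) := by
  have g := h.good.choose_spec
  have e1 := congrFun (D_none_fst F.toPre hw) x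
  have e2 := fun a => congrFun (D_some_fst F.toPre hw a) x
  have q1 : ∀ a v, A.q x.1 (A.σ a x.1 v) = A.σ a x.1 v := fun a => g.qσ a x
  have q2 : ∀ v, A.q x.1 (A.B x.1 v) = A.B x.1 v := g.qB x
  simp only [Op.app, Pre.op, Fintype.sum_option, cyl, e1, e2, map_add, map_sum, Pi.zero_apply,
    map_zero, zero_add, ContinuousLinearMap.comp_apply, h.σ_nu, q1, q2]

end gen

variable {E3 : Type} [NormedAddCommGroup E3] [NormedSpace ℝ E3] [FiniteDimensional ℝ E3]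
  [MeasurableSpace E3] [BorelSpace E3]
  {H3 : Type} [TopologicalSpace H3] {I3 : ModelWithCorners ℝ E3 H3} [I3.Boundaryless]
  {Y : Type} [TopologicalSpace Y] [ChartedSpace H3 Y] [IsManifold I3 ∞ Y] [T2Space Y]
  [MeasurableSpace Y] [BorelSpace Y] [SecondCountableTopology Y] [CompactSpace Y]
  {κ : Type} [Fintype κ] {lam : Type} [Fintype lam]
  {N : ND Y lam} {D : YD I3 Y κ lam} {β : YC Y κ lam} {l : ℝ} {ξ η : Y → (cy β).m.A}

variable (I3 β) in
/-- sections of the gauge algebra on the cross-section -/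
structure Gs (ξ : Y → (cy β).m.A) : Prop where
  sm : Sm I3 ξ
  mem : ∀ x : Y × ℝ, ξ x.1 ∈ (cy β).m.gS x

theorem Gs.lin (h : Gs I3 β ξ) (h' : Gs I3 β η) (c : ℝ) : Gs I3 β (ξ + c • η) :=
  ⟨h.sm.add ((contMDiff_const (I' := 𝓘(ℝ, ℝ)) (c := c)).smul h'.sm),
    fun y => add_mem (h.mem y) (Submodule.smul_mem _ c (h'.mem y))⟩

variable (D β) in
/-- the gauge directions on the cross-section -/
def gY (l : ℝ) (ξ : Y → (cy β).m.A) (y : Y) : Cv (cy β) := dg D.Z (cy β) l (fun x => ξ x.1) (y, 0)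

variable (β) in
/-- the direction of the circle -/
def jY (y : Y) : Cv (cy β) := jC (cy β) (y, 0)

variable (D β) in
/-- the covariant derivative on the cross-section -/
def nY (a : κ) (ξ : Y → (cy β).m.A) : Y → (cy β).m.A :=
  nab I3 D.F.e (fun a y => (cy β).m.adW (cy β).W (some a) (y, 0)) a ξ

theorem fa_dg_some {ζ : Y × ℝ → (cy β).m.A} (h : Sm (IC I3) ζ) (x : Y × ℝ) (a : κ) :
    fa (dg D.Z (cy β) l ζ x) (some a) = -nY D β a (fun y => ζ (y, x.2)) x.1 :=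
  (fa_dg ζ x _).trans (congrArg Neg.neg (nab_some _ h a x))

theorem fa_dg_none (A : D.Adm β) (h : Sm I3 ξ) (x : Y × ℝ) :
    fa (dg D.Z (cy β) l (fun x => ξ x.1) x) none = 0 := by
  have e : (cy β).W none x = 0 := A.tmp x.1
  refine (fa_dg _ x _).trans (neg_eq_zero.2 ((nab_none _ h x).trans ?_))
  rw [Md.adW, e, ← Wz78.adcL_apply, map_zero, _root_.zero_apply]

theorem dg_fst (A : D.Adm β) (h : Sm I3 ξ) :
    dg D.Z (cy β) l (fun x => ξ x.1) = fun x => gY D β l ξ x.1 := funext fun x => by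
  refine ext2 (fm_ext fun a => ?_) ?_
  · cases a with
    | none => rw [fa_dg_none A h x, gY, fa_dg_none A h]
    | some a => rw [fa_dg_some (sm_fst h) x a, gY, fa_dg_some (sm_fst h) (x.1, 0) a]
  · rw [gY, fp_dg, fp_dg]; rfl

theorem sc2_gY (y : Y) : sc2 _ _ 1 l (gY D β 1 ξ y) = gY D β l ξ y := sc2_dg _ _

section hz
variable (h : Hz N D β)
include h

theorem dO_fst (hξ : Gs I3 β ξ) (l : ℝ) : (dO D.B D.Z (cy β) l).app D.Z (fun x => ξ x.1) =
    (fun x => gY D β l ξ x.1) ∧ Tg D.B (cy β) fun x => gY D β l ξ x.1 :=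
  dg_fst h.adm hξ.sm ▸ dO_app h.ok.B h.ok.G h.adm.adm l (sm_fst hξ.sm) hξ.mem

/-- the gauge direction as a section -/
def gS (l : ℝ) (hξ : Gs I3 β ξ) : SY D β :=
  secY h (b := gY D β l ξ) (sm_of_fst ((dO_fst h hξ l).1 ▸
    Ell97.sm_app ((bs_cyl h.ok h.adm).good_dO l).choose_spec.2 (sm_fst hξ.sm) :)) (dO_fst h hξ l).2

theorem gY_lin (hξ : Gs I3 β ξ) (hη : Gs I3 β η) (c : ℝ) (y : Y) :
    gY D β l (ξ + c • η) y = gY D β l ξ y + c • gY D β l η y := by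
  rw [← congrFun (dO_fst h (hξ.lin hη c) l).1 (y, 0), ← congrFun (dO_fst h hξ l).1 (y, 0),
    ← congrFun (dO_fst h hη l).1 (y, 0)]
  exact app_lin _ c (sm_fst hξ.sm) (sm_fst hη.sm) _

/-- the direction of the circle as a section -/
def jS : SY D β := secY h (b := jY β) (sm_slice_fst (sm_jC h.adm.adm) 0) (tg_jC h.adm.adm)

theorem nondeg (hn : N.Nondeg D β) (u : SY D β) (u0 : ∀ y, fa (u.1 y) none = 0)
    (H : ∀ x, HD (fun ε : ℝ => se D.B D.G (N.q1 (n := 0) D.nk) (cy β) (ε • fun y => u.1 y.1) x) 0) :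
    ∃ ξ, Gs I3 β ξ ∧ ∃ c : ℝ, ∀ y, u.1 y = gY D β 1 ξ y + c • jY β y := by
  have tu := tg_fst h u
  have k : ∃ (ξ : Y → (cy β).m.A) (c : ℝ), Sm I3 ξ ∧ (∀ y, ξ y ∈ (cy β).m.gS (y, 0)) ∧
      (∀ a y, fa (u.1 y) (some a) = -nY D β a ξ y) ∧ ∀ y, fp (u.1 y) =
        opL (ξ y) ((cy β).Φ (y, 0)) + c • (cy β).m.J ((cy β).Φ (y, 0)) :=
    hn (fun y => fa (u.1 y)) (fun y => fp (u.1 y)) (fa.contMDiff.comp u.2.1)
      (fp.contMDiff.comp u.2.1) (fun y => tu.p1 (y, 0)) u0 (fun y => tu.pp (y, 0))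
      (fun x => (hd_eq (H x)).1) fun x => (hd_eq (H x)).2
  obtain ⟨ξ, c, h1, h2, h3, h4⟩ := k
  refine ⟨ξ, ⟨h1, fun x => h2 x.1⟩, c, fun y => ext2 (fm_ext fun a => ?_) ?_⟩
  · rw [map_add, map_smul, jY, fa_jC, smul_zero, add_zero, gY]
    cases a with
    | none => rw [u0, fa_dg_none h.adm h1]
    | some a => rw [h3, fa_dg_some (sm_fst h1)]
  · rw [map_add, map_smul, jY, fp_jC, gY, fp_dg, one_smul, h4]

variable (hl : LapStmt I3 Y κ lam)
include hl

theorem ibp (s : SY D β) (hξ : Gs I3 β ξ) :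
    ∫ y, ⟪sig D.B D.Z (cy β) 2 (fun x => s.1 x.1) (y, 0), ξ y⟫_ℝ ∂D.F.μ =
      ∫ y, ⟪sc2 _ _ 1 2 (s.1 y), gY D β 2 ξ y⟫_ℝ ∂D.F.μ :=
  ((hl D β h.ok h.adm 2).1 s.1 ξ s.2.1 (tg_fst h s) hξ.sm fun y => hξ.mem (y, 0)).trans
    (integral_congr_ae (ae_of_all _ fun y => congrArg (⟪·, gY D β 2 ξ y⟫_ℝ) (i_sc2 (s.1 y))))

theorem xi_zero (irr : Irr D β) (hξ : Gs I3 β ξ)
    (H : ∫ y, ⟪sig D.B D.Z (cy β) 2 (fun x => gY D β 1 ξ x.1) (y, 0), ξ y⟫_ℝ ∂D.F.μ = 0) : ξ = 0 := by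
  have e : ∀ x, dg D.Z (cy β) 2 (fun x => ξ x.1) x = 0 := fun x => by
    rw [dg_fst h.adm hξ.sm]
    refine congrFun (congrArg Subtype.val (sec_zero (F := D.F) (s := gS h 2 hξ) ?_)) x.1
    refine Eq.trans ?_ ((ibp h hl (gS h 1 hξ) hξ).symm.trans H)
    exact integral_congr_ae (ae_of_all _ fun y => congrArg (⟪·, gY D β 2 ξ y⟫_ℝ) (sc2_gY y).symm)
  exact funext fun y => irr (fun x => ξ x.1) ⟨(sm_fst hξ.sm).contMDiffOn, fun x _ => hξ.mem x,
    fun a x _ => (par_of two_ne_zero e x).1 a⟩ (fun x => (par_of two_ne_zero e x).2) (y, 0)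

theorem exists_u0 (irr : Irr D β) :
    ∃ ξ, Gs I3 β ξ ∧ sig D.B D.Z (cy β) 2 (fun x => jY β x.1 + gY D β 1 ξ x.1) = 0 := by
  obtain ⟨ξ, h1, h2, h3⟩ := (hl D β h.ok h.adm 2).2 irr two_ne_zero _ (jS h).2.1 (tg_fst h (jS h))
  refine ⟨ξ, ⟨h1, fun x => h2 x.1⟩, Eq.trans ?_ h3⟩
  exact congrArg (fun f : Cz β => sig D.B D.Z (cy β) 2 fun x => jY β x.1 + f x)
    (dg_fst (ξ := ξ) h.adm h1).symm

end hz

variable (N D β) in
/-- the operator on the cross-section -/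
def EY (b : Y → Cv (cy β)) (y : Y) : Cv (cy β) := (sop (AZ D β)).app D.F b y + kY N D β b y

namespace Kp
variable (h : Kp N D β)
include h

theorem gau_fst (hc : N.Crit D β) (hξ : Gs I3 β ξ) (x : Y × ℝ) :
    lin D.B D.Z (cy β) (fun x => gY D β 1 ξ x.1) x =
      kE D β x (hz N D β (fun x => gY D β 1 ξ x.1) x) ∧
    fa (hz N D β (fun x => gY D β 1 ξ x.1) x) none = 0 := by
  obtain ⟨C, -, g⟩ := (bs_cyl h.ok h.adm).good_dO 1
  obtain ⟨γ, hγ, H⟩ := h.approx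
  let u : ℕ → Y × ℝ → (cy β).m.A := fun n x => slo n x.2 • ξ x.1
  have u1 : ∀ n, Fl D.Z.toPre (u n) := fun n =>
    .of_hcs (tens (sm_slo n).cd (hcs_slo n) ⟨ξ, mem_triv hξ.sm (.of_compactSpace _)⟩).2.1
      (tens (sm_slo n).cd (hcs_slo n) ⟨ξ, mem_triv hξ.sm (.of_compactSpace _)⟩).2.2.1
  have u2 : ∀ n x, u n x ∈ (cy β).m.gS x := fun n x => Submodule.smul_mem _ _ (hξ.mem x)
  have u3 := fun n => dO_app h.ok.B h.ok.G h.adm.adm 1 (u1 n).sm (u2 n)
  have u4 : Ell97.UB (fun _ : ℕ => D.Z.toPre) u :=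
    Cls.smul (K := ub _) ub_slo (ub_cb (cb_fst (sm_fst hξ.sm)))
  have o : ∀ {n : ℕ} {x : Y × ℝ}, |x.2| < n → ∀ᶠ z : Y × ℝ in 𝓝 x, |z.2| < n := fun {n x} hx =>
    (isOpen_lt continuous_snd.abs (continuous_const (y := (n : ℝ)))).eventually_mem (x := x) hx
  have e : ∀ (n : ℕ) (x : Y × ℝ), |x.2| < n → dg D.G.F (cy β) 1 (u n) x = gY D β 1 ξ x.1 :=
      fun n x hx => by
    rw [← (u3 n).1, ← congrFun (dO_fst h.toHz hξ 1).1 x]
    exact app_congr _ ((o hx).mono fun z hz => by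
      simp only [u, slo_one (n := n) (hz.le.trans (by simp)), one_smul])
  obtain ⟨K, -, H⟩ := H (vb_fst h.toHz (gS h.toHz 1 hξ)) (b := fun n => dg D.G.F (cy β) 1 (u n))
    (fun n => ⟨(u3 n).1 ▸ (u1 n).opA g, (u3 n).2⟩) (by
      simp only [← fun n => (u3 n).1]
      exact (ub _).add (Cls.sum (K := ub _) fun a => (ub _).app (ub_cb ⟨_, g.σ a⟩) ((ub _).D u4 a))
        ((ub _).app (ub_cb ⟨_, g.B⟩) u4)) e
  have t : Tendsto (fun n => hz N D β (dg D.G.F (cy β) 1 (u n)) x) atTop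
      (𝓝 (hz N D β (fun x => gY D β 1 ξ x.1) x)) :=
    tendsto_iff_norm_sub_tendsto_zero.2 (squeeze_zero (fun _ => norm_nonneg _)
      (fun n => (norm_sub_rev _ _).trans_le ((H x).2 n)) (tendsto_ex hγ _ _ one_pos))
  have G := fun n => h.gau hc (u n) (u1 n) (u2 n)
  refine ⟨tendsto_nhds_unique (tendsto_const_nhds.congr' ?_) (((kE D β x).continuous.tendsto _).comp t),
    tendsto_nhds_unique (((pj _ none ∘L fa).continuous.tendsto _).comp t)
      (tendsto_const_nhds.congr fun n => ((G n).2 x).symm)⟩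
  filter_upwards [tendsto_natCast_atTop_atTop.eventually_gt_atTop |x.2|] with n hn
  exact (app_congr _ ((o hn).mono (e n))).symm.trans (congrFun (G n).1 x)

variable (hd : Module.finrank ℝ E3 ≤ 3)
include hd

theorem σ_EY (s : SY D β) (x : Y × ℝ) : (AZ D β).σ none x.1 (EY N D β s.1 x.1) =
    i1 _ _ ((1 / 2 : ℝ) • (sig D.B D.Z (cy β) 2 (fun y => sc2 _ _ 2 1 (s.1 y.1)) x +
      KT N D β (fun y => sc2 _ _ 2 1 (s.1 y.1)) x)) +
    i2 _ _ (sc2 _ _ 1 (1 / 2) (lin D.B D.Z (cy β) (fun y => sc2 _ _ 2 1 (s.1 y.1)) x -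
      KE N D β (fun y => sc2 _ _ 2 1 (s.1 y.1)) x)) := by
  refine Eq.trans ?_ (sz_id h.ok h.adm (sm_fst s.2.1) (tg_fst h.toHz s)
    (h.pC_hz (scY h.toHz 2 1 s) x))
  rw [EY, map_add, ← (cyO_AZ h.toHz hd).app_fst s.2.1, ← h.hs_fst s x, ← cyo_AZ h.toHz]
  rfl

variable {K : HZ D β 0 →L[ℝ] HZ D β 0} (hK : IsK N D β K)
include hK

/-- the operator on Sobolev spaces of the cross-section -/
abbrev _root_.Crest.Agent.X212.Cyf70.OY (K : HZ D β 0 →L[ℝ] HZ D β 0) : HY D β 1 →L[ℝ] HY D β 0 :=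
  Crt72.Op (D.F.incl 1 0 (AZ D β).p) (LH D.F (AZ D β) 0) (kk (KZ K))

theorem OY_toH (s : SY D β) : ∃ e : SY D β, e.1 = EY N D β s.1 ∧
    OY K (D.F.toH 1 _ s) = D.F.toH 0 _ e := by
  obtain ⟨C, g⟩ := (cyO_AZ h.toHz hd).good_sop
  refine ⟨Ell97.LS g s + (h.sd hd hK).kS s, rfl, ?_⟩
  rw [Crt72.Op_apply, LH, Ell97.H_toH g, incl_toH zero_le_one, (h.sd hd hK).kk_toH s, map_add]

theorem EY_symm (s t : SY D β) : ∫ y, ⟪EY N D β s.1 y, t.1 y⟫_ℝ ∂D.F.μ =
    ∫ y, ⟪s.1 y, EY N D β t.1 y⟫_ℝ ∂D.F.μ := by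
  obtain ⟨d, C, hT⟩ := h.tk hK
  obtain ⟨σ, σ', hσ⟩ := exists_stp
  obtain ⟨e, e1, e2⟩ := h.OY_toH hd hK s
  obtain ⟨f, f1, f2⟩ := h.OY_toH hd hK t
  have := ((cyO_AZ h.toHz hd).isSF hσ).symOp hT.kk_symm (D.F.toH 1 _ s) (D.F.toH 1 _ t)
  rwa [e2, f2, incl_toH zero_le_one, incl_toH zero_le_one, inner_toH, inner_toH, e1, f1] at this

variable (hl : LapStmt I3 Y κ lam) (hc : N.Crit D β) (irr : Irr D β)
include hl hc irr

theorem dt_zero {s : SY D β} (hs : EY N D β s.1 = 0) (y : Y) : fa (s.1 y) none = 0 := by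
  have o := cyO_AZ h.toHz hd
  have m : Gs I3 β fun y => fa (s.1 y) none :=
    ⟨sm_clm (pj _ none ∘L fa) s.2.1, fun x => (tg_fst h.toHz s).mem x none⟩
  refine congrFun (xi_zero h.toHz hl irr m ?_) y
  have H := h.EY_symm hd hK s (scY h.toHz (1 / 2) 1 (gS h.toHz 1 m))
  have e : (fun y : Y × ℝ => sc2 _ _ 2 1 ((scY h.toHz (1 / 2) 1 (gS h.toHz 1 m)).1 y.1)) =
      fun x => gY D β 1 (fun y => fa (s.1 y) none) x.1 :=
    funext fun x => (sc2_sc2 ..).trans (by norm_num; exact sc2_one _)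
  simp only [hs, Pi.zero_apply, inner_zero_left, integral_zero] at H
  refine Eq.trans ?_ ((integral_const_mul 2 _).trans ((congrArg (2 * ·) H.symm).trans (mul_zero _)))
  refine integral_congr_ae (ae_of_all _ fun y => ?_)
  have g := h.gau_fst hc m (y, 0)
  have h1 := h.σ_EY hd (scY h.toHz (1 / 2) 1 (gS h.toHz 1 m)) (y, 0)
  have h2 : f2 _ _ ((AZ D β).σ none y (s.1 y)) = fa (s.1 y) none :=
    ((bs_cyl h.ok h.adm).ok.full_σ1 _ none (y, 0) _).trans
      (congrArg (· none) ((tg_fst h.toHz s).p1 (y, 0)))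
  rw [e, KE, ← g.1, KT, _root_.smul_apply, show (pj _ none ∘L fa) _ = 0 from g.2] at h1
  beta_reduce
  rw [o.inner_σ (s.2.2.2 y), h1, inner2, h2, f2_ii, s2_ii, sub_self, map_zero, inner_zero_right,
    smul_zero, add_zero, add_zero, real_inner_smul_right, real_inner_comm]
  ring

theorem ker_span (hn : N.Nondeg D β) {s : SY D β} (hs : EY N D β s.1 = 0) (hη : Gs I3 β η)
    (h0 : sig D.B D.Z (cy β) 2 (fun x => jY β x.1 + gY D β 1 η x.1) = 0) :
    ∃ c : ℝ, ∀ y, sc2 _ _ 2 1 (s.1 y) = c • (jY β y + gY D β 1 η y) := by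
  obtain ⟨u, hu⟩ : ∃ u, u = scY h.toHz 2 1 s := ⟨_, rfl⟩
  have e : ∀ y, sc2 _ _ 2 1 (s.1 y) = u.1 y := fun y => by rw [hu]; rfl
  have u0 : ∀ y, fa (u.1 y) none = 0 := fun y => by simp [← e, h.dt_zero hd hK hl hc irr hs y]
  have tu := tg_fst h.toHz u
  obtain ⟨γ, -, C, -, H⟩ := h.slice u
  have k := fun x => h.σ_EY hd s x
  simp only [hs, e, Pi.zero_apply, map_zero] at k ⊢
  have k1 : ∀ x, sig D.B D.Z (cy β) 2 (fun y => u.1 y.1) x = 0 := fun x => by
    have h1 := ((pj _ none ∘L fa).hasFDerivAt.comp_hasDerivAt 0 (H x).1).unique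
      ((hasDerivAt_const (0 : ℝ) 0).congr_of_eventuallyEq (Eventually.of_forall fun ε =>
        h.iv (ε • u).1 (ε • u).2.1 (tg_fst h.toHz (ε • u)) (fun y => by simp [u0]) x))
    have h2 := congrArg (f2 _ _) (k x)
    rw [KT, _root_.smul_apply, h1] at h2
    simpa using h2.symm
  have k2 : ∀ x, HD (fun ε : ℝ => se D.B D.G (N.q1 (n := 0) D.nk) (cy β)
      (ε • fun y => u.1 y.1) x) 0 := fun x => by
    have h2 := congrArg (fun z => sc2 _ _ 1 2 (s2 _ _ z)) (k x)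
    simp only [map_add, s2_i1, s2_i2, zero_add, sc2_sc2, map_zero] at h2
    rw [mul_one, show (2 : ℝ) * (1 / 2) = 1 by norm_num, sc2_one] at h2
    rw [h2]
    refine hd_se h.ok.B h.ok.G h.adm.adm _ (sm_fst u.2.1) tu ?_
    simp only [te_q1 h.toHz]
    exact (kE D β x).hasFDerivAt.comp_hasDerivAt 0 (H x).1
  obtain ⟨ξ, g, c, h3⟩ := nondeg h.toHz hn u u0 k2
  have e1 : ∀ y, u.1 y + -c • (jY β y + gY D β 1 η y) = gY D β 1 (ξ + -c • η) y := fun y => by
    rw [gY_lin h.toHz g hη, h3]; module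
  have e2 := xi_zero h.toHz hl irr (g.lin hη (-c)) (integral_eq_zero_of_ae (ae_of_all _ fun y => by
    have := sig_lin (F := D.Z) (B := D.B) (l := 2) (v := fun x => jY β x.1 + gY D β 1 η x.1) (-c)
      (sm_fst u.2.1) (sm_fst (jS h.toHz + gS h.toHz 1 hη).2.1) (y, 0)
    rw [k1, h0, Pi.zero_apply, smul_zero, add_zero, show ((fun x : Y × ℝ => u.1 x.1) + -c • fun x =>
      jY β x.1 + gY D β 1 η x.1) = fun x => gY D β 1 (ξ + -c • η) x.1 from funext fun x => e1 x.1] at this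
    beta_reduce
    rw [this, inner_zero_left, Pi.zero_apply]))
  refine ⟨c, fun y => ?_⟩
  have := e1 y
  rw [e2, neg_smul, ← sub_eq_add_neg] at this
  exact sub_eq_zero.1 (this.trans (dg_zero _))

/-- **the kernel is spanned by the direction of the circle** -/
theorem ker_le (hn : N.Nondeg D β) (hη : Gs I3 β η)
    (h0 : sig D.B D.Z (cy β) 2 (fun x => jY β x.1 + gY D β 1 η x.1) = 0) {v : HY D β 1}
    (hv : OY K v = 0) : ∃ c : ℝ,
      v = c • D.F.toH 1 _ (scY h.toHz (1 / 2) 1 (jS h.toHz + gS h.toHz 1 hη)) := by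
  obtain ⟨s, rfl⟩ := (h.sd hd hK).ker_smooth hv
  obtain ⟨e, e1, e2⟩ := h.OY_toH hd hK s
  obtain rfl : e = 0 := Ell97.toH_inj D.F 0 _ (e2.symm.trans (hv.trans (map_zero _).symm))
  obtain ⟨c, H⟩ := h.ker_span hd hK hl hc irr hn e1.symm hη h0
  refine ⟨c, (congrArg _ (Subtype.ext (funext fun y => ?_))).trans (map_smul _ _ _)⟩
  have := congrArg (sc2 _ _ (1 / 2) 1) (H y)
  rw [sc2_sc2, show (1 / 2 : ℝ) * 2 = 1 by norm_num, mul_one, sc2_one, map_smul] at this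
  exact this

end Kp

end Crest.Agent.X212.Cyf70
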