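import Crest.Agent.X212.Cyf70.CD
import Mathlib.MeasureTheory.Function.LpSpace.ContinuousCompMeasurePreserving
import Crest.Agent.X212.Dec35.Com
import Crest.Agent.X212.Cyf70.Pert
import Crest.Agent.X212.Rf65.Poi
import Mathlib.Analysis.Normed.Lp.SmoothApprox
import Mathlib.Analysis.Calculus.BumpFunction.Normed
import Crest.Agent.X212.Cyf70.Flip

-- ▼ part X212/Cyf70/Tr
section

/-!
# Row 212, CYLF (helper70): translations and convolutions on `L²(ℝ, X)`
-/

set_option autoImplicit false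
set_option linter.unusedSectionVars false
open Function Filter Topology Module Set MeasureTheory
open scoped RealInnerProductSpace BoundedContinuousFunction ContDiff

noncomputable section
namespace Crest.Agent.X212.Cyf70

section tr
variable {X Y : Type*} [NormedAddCommGroup X] [NormedSpace ℝ X] [NormedAddCommGroup Y]
  [NormedSpace ℝ Y]

variable (X) in
/-- translation -/
def tr (h : ℝ) : Lam X →L[ℝ] Lam X :=
  (Lp.compMeasurePreservingₗᵢ ℝ (fun t : ℝ => t + h)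
    (measurePreserving_add_right volume h)).toContinuousLinearMap

theorem R.tr {f : Lam X} {g : ℝ → X} (h : ℝ) (H : R f g) : R (tr X h f) fun t => g (t + h) :=
  (Lp.coeFn_compMeasurePreserving f _).trans
    ((measurePreserving_add_right volume h).quasiMeasurePreserving.ae_eq_comp H)

theorem R.cp {f : Lam X} {g : ℝ → X} (a : X →L[ℝ] Y) (h : R f g) : R (cp a f) fun t => a (g t) :=
  (h.ma 1 a).congr fun t => by simp

/-- evaluation at `x` -/
def cpx (x : Lam X) : (X →L[ℝ] Y) →L[ℝ] Lam Y :=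
  ContinuousLinearMap.apply ℝ (Lam Y) x ∘L ma (X := X) (Y := Y) 1

theorem cpx_apply (x : Lam X) (a : X →L[ℝ] Y) : cpx x a = cp a x := rfl

/-- computes representatives -/
macro "rt" : tactic => `(tactic| repeat' (first
  | with_reducible assumption
  | with_reducible apply R.ma | with_reducible apply R.tr | with_reducible apply R.ten
  | with_reducible apply R.add | with_reducible apply R.sub
  | with_reducible apply R.neg | with_reducible apply R.smul | with_reducible exact R.zero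
  | with_reducible exact R.rfl _))

theorem norm_tr (h : ℝ) (f : Lam X) : ‖tr X h f‖ = ‖f‖ := Lp.norm_compMeasurePreserving f _

theorem tr_tr (h k : ℝ) (f : Lam X) : tr X h (tr X k f) = tr X (h + k) f :=
  R.ext' (by rt) (by rt) fun t => by rw [add_assoc]

theorem tr_zero (f : Lam X) : tr X 0 f = f := R.ext' (by rt) (by rt) fun t => by rw [add_zero]

theorem tr_cp (h : ℝ) (a : X →L[ℝ] Y) (f : Lam X) : tr Y h (cp a f) = cp a (tr X h f) :=
  R.ext' (by rt) (by rt) fun t => by simp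

theorem tr_ten (h : ℝ) (φ : Lam ℝ) (x : X) : tr X h (ten φ x) = ten (tr ℝ h φ) x :=
  R.ext' (by rt) (by rt) fun t => rfl

theorem cont_tr (f : Lam X) : Continuous fun h => tr X h f :=
  Continuous.compMeasurePreservingLp (f := fun _ : ℝ => f)
    (g := fun h : ℝ => (⟨fun t : ℝ => t + h, by fun_prop⟩ : C(ℝ, ℝ))) continuous_const
    (ContinuousMap.continuous_of_continuous_uncurry _ (by
      change Continuous fun p : ℝ × ℝ => p.2 + p.1; fun_prop))
    (fun h => measurePreserving_add_right volume h) (by simp)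

theorem norm_cp_le (a : X →L[ℝ] Y) (f : Lam X) : ‖cp a f‖ ≤ ‖a‖ * ‖f‖ :=
  R.norm_le (by rt) (by rt) (ae_of_all _ fun t => by simpa using a.le_opNorm _)

/-- `x'` has norm at most `D` -/
def Lip (x : Lam X) (D : ℝ) : Prop := ∀ r, ‖tr X r x - x‖ ≤ |r| * D

theorem Lip.nonneg {x : Lam X} {D : ℝ} (h : Lip x D) : 0 ≤ D := by
  simpa using (norm_nonneg _).trans (h 1)

theorem Lip.map {x : Lam X} {D N : ℝ} (h : Lip x D) {B : Lam X →L[ℝ] Lam Y}
    (hB : ∀ r z, tr Y r (B z) = B (tr X r z)) (hN : ∀ z, ‖B z‖ ≤ N * ‖z‖) (N0 : 0 ≤ N) :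
    Lip (B x) (N * D) := fun r => by
  rw [hB, ← map_sub, mul_left_comm]
  exact (hN _).trans (mul_le_mul_of_nonneg_left (h r) N0)

theorem Lip.cp {x : Lam X} {D : ℝ} (h : Lip x D) (a : X →L[ℝ] Y) : Lip (cp a x) (‖a‖ * D) :=
  h.map (fun r z => tr_cp r a z) (norm_cp_le a) (norm_nonneg _)

/-- kernels -/
structure Ker (g : ℝ → X →L[ℝ] Y) : Prop where
  cont : Continuous g
  int : Integrable fun r => (1 + r ^ 2) * ‖g r‖

/-- the moment of a kernel -/
def mo (g : ℝ → X →L[ℝ] Y) : ℝ := ∫ r, (1 + r ^ 2) * ‖g r‖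

theorem mo_nonneg (g : ℝ → X →L[ℝ] Y) : 0 ≤ mo g := integral_nonneg fun _ => by positivity

namespace Ker
variable {g : ℝ → X →L[ℝ] Y} (hg : Ker g)
include hg

theorem bd {N : Type*} [NormedAddCommGroup N] [NormedSpace ℝ N] {f : ℝ → N} (hf : Continuous f)
    {c : ℝ} (h : ∀ r, ‖f r‖ ≤ (1 + r ^ 2) * ‖g r‖ * c) : Integrable f ∧ ‖∫ r, f r‖ ≤ mo g * c :=
  ⟨(hg.int.mul_const c).mono' hf.aestronglyMeasurable (ae_of_all _ h),
    (norm_integral_le_of_norm_le (hg.int.mul_const c) (ae_of_all _ h)).trans_eq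
      (integral_mul_const _ _)⟩

theorem int' : Integrable g := (hg.bd hg.cont (c := 1) fun r => by
  nlinarith [norm_nonneg (g r), mul_nonneg (sq_nonneg r) (norm_nonneg (g r))]).1

theorem cc {x : ℝ → Lam X} (hx : Continuous x) : Continuous fun r => cp (g r) (x r) :=
  ((ma 1).continuous.comp hg.cont).clm_apply hx

theorem bd' {x : ℝ → Lam X} (hx : Continuous x) {c : ℝ} (h : ∀ r, ‖x r‖ ≤ (1 + r ^ 2) * c) :
    Integrable (fun r => cp (g r) (x r)) ∧ ‖∫ r, cp (g r) (x r)‖ ≤ mo g * c :=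
  hg.bd (hg.cc hx) fun r => (norm_cp_le _ _).trans
    ((mul_le_mul_of_nonneg_left (h r) (norm_nonneg _)).trans_eq (by ring))

theorem bd_tr (x : Lam X) :
    Integrable (fun r => cp (g r) (tr X r x)) ∧ ‖∫ r, cp (g r) (tr X r x)‖ ≤ mo g * ‖x‖ :=
  hg.bd' (cont_tr x) fun r => by
    rw [norm_tr]; nlinarith [mul_nonneg (sq_nonneg r) (norm_nonneg x)]

/-- the convolution operator -/
def cv : Lam X →L[ℝ] Lam Y :=
  LinearMap.mkContinuous
    { toFun := fun x => ∫ r, cp (g r) (tr X r x)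
      map_add' := fun x y => by
        simp only [map_add]; exact integral_add (hg.bd_tr x).1 (hg.bd_tr y).1
      map_smul' := fun c x => by simp only [map_smul, integral_smul, RingHom.id_apply] }
    (mo g) fun x => (hg.bd_tr x).2

theorem cv_apply (x : Lam X) : hg.cv x = ∫ r, cp (g r) (tr X r x) := rfl

theorem norm_cv (x : Lam X) : ‖hg.cv x‖ ≤ mo g * ‖x‖ := (hg.bd_tr x).2

variable [CompleteSpace Y]

theorem map_cv {W : Type*} [NormedAddCommGroup W] [NormedSpace ℝ W] [CompleteSpace W]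
    (B : Lam Y →L[ℝ] W) (x : Lam X) : B (hg.cv x) = ∫ r, B (cp (g r) (tr X r x)) :=
  (B.integral_comp_comm (hg.bd_tr x).1).symm

theorem tr_cv (h : ℝ) (x : Lam X) : tr Y h (hg.cv x) = hg.cv (tr X h x) := by
  rw [hg.map_cv]; simp only [cv_apply, tr_cp, tr_tr, add_comm h]

theorem cp_int (x : Lam X) : cp (∫ r, g r) x = ∫ r, cp (g r) x :=
  ((cpx x).integral_comp_comm hg.int').symm

theorem int_cp (x : Lam X) : Integrable fun r => cp (g r) x :=
  (cpx x).integrable_comp hg.int'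

theorem cv_sub (x : Lam X) : hg.cv x - cp (∫ r, g r) x = ∫ r, cp (g r) (tr X r x - x) := by
  rw [cv_apply, hg.cp_int, ← integral_sub (hg.bd_tr x).1 (hg.int_cp x)]
  simp only [map_sub]

theorem cv_sub_le {x : Lam X} {D : ℝ} (h : Lip x D) : ‖hg.cv x - cp (∫ r, g r) x‖ ≤ mo g * D := by
  rw [hg.cv_sub]
  refine (hg.bd' ((cont_tr x).sub continuous_const) fun r => (h r).trans ?_).2
  refine mul_le_mul_of_nonneg_right ?_ h.nonneg
  nlinarith [sq_abs r, sq_nonneg (|r| - 1), abs_nonneg r]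

end Ker
end tr

section inner
variable {X Y : Type*} [NormedAddCommGroup X] [InnerProductSpace ℝ X] [NormedAddCommGroup Y]
  [InnerProductSpace ℝ Y]

theorem inner_tr (h : ℝ) (f g : Lam X) : ⟪tr X h f, g⟫ = ⟪f, tr X (-h) g⟫ := by
  rw [R.inner (f := tr X h f) (by rt) (R.rfl g), R.inner (R.rfl f) (f' := tr X (-h) g) (by rt),
    ← integral_add_right_eq_self (fun t => ⟪f t, g (t + -h)⟫) h]
  simp

theorem fub_int {μ : Measure ℝ} [SFinite μ] {g : ℝ → X →L[ℝ] Y} (hg : Continuous g)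
    (hi : Integrable g μ) {x : Lam X} {W : ℝ → X} (hx : R x W) (mW : StronglyMeasurable W)
    (y : Lam Y) : Integrable (uncurry fun r s => ⟪g r (W (s + r)), y s⟫) (μ.prod volume) := by
  have m1 : StronglyMeasurable (uncurry fun r s => ⟪g r (W (s + r)), y s⟫) :=
    StronglyMeasurable.inner
      ((ContinuousLinearMap.id ℝ (X →L[ℝ] Y)).continuous₂.comp_stronglyMeasurable
        ((hg.stronglyMeasurable.comp_measurable measurable_fst).prodMk
          (mW.comp_measurable (measurable_snd.add measurable_fst))))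
      ((Lp.stronglyMeasurable y).comp_measurable measurable_snd)
  have i1 : ∀ r, Integrable fun s => ⟪g r (W (s + r)), y s⟫ := fun r =>
    R.integrable ((hx.tr r).cp _) (R.rfl y)
  refine (integrable_prod_iff m1.aestronglyMeasurable).2 ⟨ae_of_all _ i1, ?_⟩
  refine (hi.norm.mul_const (⟪x, x⟫ + ⟪y, y⟫)).mono'
    m1.norm.integral_prod_right'.aestronglyMeasurable (ae_of_all _ fun r => ?_)
  have a1 := R.integrable (hx.tr r) (hx.tr r)
  have a2 := R.integrable (R.rfl y) (R.rfl y)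
  have e : ⟪x, x⟫ = ⟪tr X r x, tr X r x⟫ := by simp only [real_inner_self_eq_norm_sq, norm_tr]
  rw [e, R.inner (hx.tr r) (hx.tr r), R.inner (R.rfl y) (R.rfl y), ← integral_add a1 a2,
    ← integral_const_mul, Real.norm_of_nonneg (integral_nonneg fun _ => norm_nonneg _)]
  refine integral_mono (i1 r).norm ((a1.add a2).const_mul _) fun s => ?_
  have b1 := (abs_real_inner_le_norm _ (y s)).trans
    (mul_le_mul_of_nonneg_right ((g r).le_opNorm (W (s + r))) (norm_nonneg _))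
  simp only [uncurry, real_inner_self_eq_norm_sq, Real.norm_eq_abs]
  nlinarith [mul_nonneg (norm_nonneg (g r)) (sq_nonneg (‖W (s + r)‖ - ‖y s‖)),
    mul_nonneg (norm_nonneg (g r)) (mul_nonneg (norm_nonneg (W (s + r))) (norm_nonneg (y s)))]

namespace Ker
variable [CompleteSpace Y] {g : ℝ → X →L[ℝ] Y} (hg : Ker g)
include hg

theorem inner_cv' (x : Lam X) (y : Lam Y) : ⟪hg.cv x, y⟫ = ∫ r, ⟪cp (g r) (tr X r x), y⟫ := by
  simpa only [innerSL_apply_apply, real_inner_comm y] using hg.map_cv (innerSL ℝ y) x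

theorem inner_cv (x : Lam X) (y : Lam Y) :
    ⟪hg.cv x, y⟫ = ∫ s, ∫ r, ⟪g r (x (s + r)), y s⟫ := by
  rw [hg.inner_cv', ← integral_integral_swap
    (fub_int hg.cont hg.int' (R.rfl x) (Lp.stronglyMeasurable x) y)]
  congr 1; funext r
  exact R.inner (((R.rfl x).tr r).cp _) (R.rfl y)

/-- even kernels -/
theorem even (he : ∀ r, g (-r) = g r) {x : Lam X} {y : Lam Y} {D D' : ℝ} (hx : Lip x D)
    (hy : Lip y D') : |⟪hg.cv x - cp (∫ r, g r) x, y⟫| ≤ mo g * (D * D') := by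
  have c1 : Continuous fun r => tr X r x - x := (cont_tr x).sub continuous_const
  have i1 : Integrable fun r => cp (g r) (tr X r x - x) := by
    simp only [map_sub]; exact (hg.bd_tr x).1.sub (hg.int_cp x)
  let a : ℝ → ℝ := fun r => ⟪cp (g r) (tr X r x - x), y⟫
  have ia : Integrable a := i1.inner_const y
  have e1 : ⟪hg.cv x - cp (∫ r, g r) x, y⟫ = ∫ r, a r := by
    rw [hg.cv_sub]
    simpa only [innerSL_apply_apply, a, real_inner_comm y] using
      ((innerSL ℝ y).integral_comp_comm i1).symm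
  have e2 : ∀ r, ⟪cp (g r) (tr X r x - x), tr Y r y - y⟫ = -(a r + a (-r)) := fun r => by
    have : ⟪cp (g r) (tr X r x - x), tr Y r y⟫ = ⟪cp (g r) (x - tr X (-r) x), y⟫ := by
      rw [real_inner_comm, inner_tr, real_inner_comm, tr_cp, map_sub (tr X (-r)), tr_tr,
        neg_add_cancel, tr_zero]
    rw [inner_sub_right, this]
    simp only [a, he, map_sub, inner_sub_left]
    ring
  have := (hg.bd (f := fun r => ⟪cp (g r) (tr X r x - x), tr Y r y - y⟫)
    ((hg.cc c1).inner ((cont_tr y).sub continuous_const)) (c := D * D') fun r => by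
      refine (norm_inner_le_norm _ _).trans ((mul_le_mul ((norm_cp_le _ _).trans
        (mul_le_mul_of_nonneg_left (hx r) (norm_nonneg _))) (hy r) (norm_nonneg _)
        (mul_nonneg (norm_nonneg _) (mul_nonneg (abs_nonneg _) hx.nonneg))).trans ?_)
      have := mul_nonneg (norm_nonneg (g r)) (mul_nonneg hx.nonneg hy.nonneg)
      rw [← sq_abs r]; nlinarith).2
  simp only [e2, integral_neg, norm_neg] at this
  rw [integral_add ia ia.comp_neg, integral_neg_eq_self a, ← two_mul, norm_mul, Real.norm_two,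
    Real.norm_eq_abs] at this
  rw [e1]; linarith [abs_nonneg (∫ r, a r)]

end Ker
end inner

namespace CylD
variable {X₁ X₀ Z : Type*} [NormedAddCommGroup X₁] [NormedSpace ℝ X₁] [NormedAddCommGroup X₀]
  [InnerProductSpace ℝ X₀] [NormedAddCommGroup Z] [NormedSpace ℝ Z] [CompleteSpace X₀]
  {τ : ℝ} {i L : X₁ →L[ℝ] X₀} {J : Z →L[ℝ] Lam X₁} {T : Z →L[ℝ] Lam X₀} (h : CylD τ i L J T)
include h

theorem abs_τ : |τ| = 1 := by
  have := h.sq
  rcases mul_self_eq_one_iff.1 this with e | e <;> simp [e]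

theorem tr_sub (a : ℝ) (u : Z) :
    tr X₀ a (cp i (J u)) - cp i (J u) = τ • ∫ r in (0 : ℝ)..a, tr X₀ r (T u) := by
  refine Dense.induction (P := fun u => tr X₀ a (cp i (J u)) - cp i (J u) =
    τ • ∫ r in (0 : ℝ)..a, tr X₀ r (T u)) h.den ?_ (isClosed_eq (by fun_prop) ?_) u
  · rintro v ⟨V, V', h1, h2, -, h4, h5⟩
    refine ext_inner_right ℝ fun y => ?_
    have c : Continuous fun t => τ • i (V' t) := by fun_prop
    have e1 := ((innerSL ℝ y).intervalIntegral_comp_comm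
      ((cont_tr (T v)).intervalIntegrable (μ := volume) 0 a)).symm
    simp only [innerSL_apply_apply, real_inner_comm _ y] at e1
    have e2 : ∀ r, ⟪tr X₀ r (T v), y⟫ = ∫ s, ⟪τ • i (V' (s + r)), y s⟫ := fun r =>
      R.inner (h5.tr r) (R.rfl y)
    rw [real_inner_smul_left, e1, R.inner (f := tr X₀ a (cp i (J v)) - cp i (J v)) (by rt) (R.rfl y)]
    simp only [e2]
    rw [intervalIntegral_integral_swap (f := fun r s => ⟪τ • i (V' (s + r)), y s⟫)
      (fub_int (g := fun _ => ContinuousLinearMap.id ℝ X₀) continuous_const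
        (μ := volume.restrict (uIoc 0 a)) (continuous_const.integrableOn_uIoc) h5 c.stronglyMeasurable y),
      ← integral_const_mul]
    congr 1; funext s
    have d : ∀ r, HasDerivAt (fun r => ⟪i (V (s + r)), y s⟫) ⟪i (V' (s + r)), y s⟫ r := fun r => by
      simpa using (i.hasFDerivAt.comp_hasDerivAt r ((h1 (s + r)).comp_const_add s r)).inner ℝ
        (hasDerivAt_const r (y s))
    simp only [real_inner_smul_left, intervalIntegral.integral_const_mul, ← mul_assoc, h.sq]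
    rw [intervalIntegral.integral_eq_sub_of_hasDerivAt (fun r _ => d r)
      (Continuous.intervalIntegrable (by fun_prop) _ _)]
    simp [inner_sub_left]
  · refine Continuous.const_smul (LipschitzWith.continuous (K := ⟨|a| * ‖T‖, by positivity⟩)
      (LipschitzWith.of_dist_le_mul fun u v => ?_)) τ
    rw [dist_eq_norm, dist_eq_norm, ← intervalIntegral.integral_sub
      ((cont_tr _).intervalIntegrable _ _) ((cont_tr _).intervalIntegrable _ _)]
    refine (intervalIntegral.norm_integral_le_of_norm_le_const (C := ‖T‖ * ‖u - v‖)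
      fun r _ => ?_).trans_eq (show _ = |a| * ‖T‖ * ‖u - v‖ by rw [sub_zero]; ring)
    rw [← map_sub, norm_tr, ← map_sub]; exact T.le_opNorm _

theorem lip (u : Z) : Lip (cp i (J u)) ‖T u‖ := fun r => by
  rw [h.tr_sub, norm_smul, Real.norm_eq_abs, h.abs_τ, one_mul]
  exact (intervalIntegral.norm_integral_le_of_norm_le_const fun s _ => (norm_tr _ _).le).trans_eq
    (by simp [mul_comm])

/-- a symmetric translation invariant operator is orthogonal to the derivative -/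
theorem orth {K : Lam X₀ →L[ℝ] Lam X₀} (hK : ∀ x y, ⟪K x, y⟫ = ⟪x, K y⟫)
    (ht : ∀ r x, tr X₀ r (K x) = K (tr X₀ r x)) (u : Z) : ⟪T u, K (cp i (J u))⟫ = 0 := by
  set x := cp i (J u)
  let ψ : ℝ → ℝ := fun r => ⟪tr X₀ r (T u), K x⟫
  have cψ : Continuous ψ := (cont_tr _).inner continuous_const
  let a : ℝ → ℝ := fun b => τ * ∫ r in (0 : ℝ)..b, ψ r
  have e : ∀ b, a b = ⟪tr X₀ b x - x, K x⟫ := fun b => by
    have e1 := (innerSL ℝ (K x)).intervalIntegral_comp_comm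
      ((cont_tr (T u)).intervalIntegrable (μ := volume) 0 b)
    simp only [innerSL_apply_apply, real_inner_comm _ (K x)] at e1
    rw [h.tr_sub, real_inner_smul_left, ← e1]
  have ev : ∀ b, a (-b) = a b := fun b => by
    rw [e, e, inner_sub_left, inner_sub_left, inner_tr, neg_neg, ht, ← hK, real_inner_comm]
  have d : HasDerivAt a (τ * ψ 0) 0 := (cψ.integral_hasStrictDerivAt 0 0).hasDerivAt.const_mul τ
  have d' : HasDerivAt a (-(τ * ψ 0)) 0 := by
    have := HasDerivAt.comp_const_sub (a := 0) (x := 0) (f := a) (by simpa using d)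
    simpa [ev] using this
  have := d.unique d'
  have h0 : τ * (τ * ψ 0) = 0 := by rw [show τ * ψ 0 = 0 by linarith, mul_zero]
  rw [← mul_assoc, h.sq, one_mul] at h0
  simpa only [ψ, tr_zero] using h0

end CylD

end Crest.Agent.X212.Cyf70
end
end

-- ▼ part X212/Dec35/Pk
section

/-!
# Row 212, DEC (helper35): the lower bound for peaked weights, non-local operators allowed

The weight `e^ψ` has `ψ' = -δ ς`, `|ς| ≤ 1`, `ς² = 1` off the support of `κ`; the component along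
the kernel is controlled by a row `ρ` on the support of `κ`.
-/

set_option autoImplicit false
noncomputable section
open Set Real
open scoped RealInnerProductSpace

namespace Crest.Agent.X212.Dec35
open Neck67 Cyf70

variable {A B : Type*} [NormedAddCommGroup A] [InnerProductSpace ℝ A] [NormedAddCommGroup B]
  [NormedSpace ℝ B]

/-- the cylinder operator `T + S` with its multiplications and the kernel projector `P` -/
structure Cy (M : Mu A) (mB : (ℝ → ℝ) → B → B) (i T S : B →L[ℝ] A) (P : A →L[ℝ] A) (C : ℝ) :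
    Prop where
  op : CylOp i T S
  one : 1 ≤ C
  im : ∀ b, Sm b → ∀ u, i (mB b u) = M.m b (i u)
  Tm : ∀ b, Sm b → ∀ u, T (mB b u) = M.m b (T u) + M.m (deriv b) (i u)
  Pm : ∀ b, Sm b → ∀ x, P (M.m b x) = M.m b (P x)
  low : ∀ u, ‖i u - P (i u)‖ ≤ C * (‖S u‖ + ‖T u‖)
  quad : ∀ u w, |⟪S u, P (i w)⟫| ≤ C * (‖i u - P (i u)‖ + ‖T u‖) * ‖T w‖

theorem pk_arith {δ C H a x ρ η y : ℝ} (hδ : 0 < δ) (hC : 1 ≤ C) (hH : 1 ≤ H) (ha : 0 ≤ a)
    (hx : 0 ≤ x) (hρ : 0 ≤ ρ) (hη0 : 0 ≤ η) (hy0 : 0 ≤ y) (hη : η ≤ a + 2 * C * δ * x)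
    (hy : y ≤ ρ + H * η) (hs : δ * (416 * C ^ 4 * H ^ 2) ≤ 1)
    (h : 3 / 4 * δ * x ^ 2 ≤ a * x + 3 * C ^ 2 * y ^ 2 + 7 * C ^ 2 * η ^ 2) :
    δ * x ≤ 3 * (a + ρ) := by
  have hC2 : 1 ≤ C ^ 2 := one_le_pow₀ hC
  have hH2 : 1 ≤ H ^ 2 := one_le_pow₀ hH
  have y2 : y ^ 2 ≤ 2 * ρ ^ 2 + 2 * (H ^ 2 * η ^ 2) := by
    nlinarith [pow_le_pow_left₀ hy0 hy 2, sq_nonneg (ρ - H * η)]
  have η2 : η ^ 2 ≤ 2 * a ^ 2 + 8 * (C ^ 2 * (δ * x) ^ 2) := by
    nlinarith [pow_le_pow_left₀ hη0 hη 2, sq_nonneg (a - 2 * C * δ * x)]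
  set W := C ^ 2 * H ^ 2 with hW
  have W1 : C ^ 2 ≤ W := le_mul_of_one_le_right (by positivity) hH2
  have s1 : 3 * C ^ 2 * y ^ 2 + 7 * C ^ 2 * η ^ 2 ≤ 6 * W * ρ ^ 2 + 13 * W * η ^ 2 := by
    have a1 := mul_le_mul_of_nonneg_left y2 (show 0 ≤ 3 * C ^ 2 by positivity)
    have a2 := mul_le_mul_of_nonneg_right W1 (sq_nonneg ρ)
    have a3 := mul_le_mul_of_nonneg_right W1 (sq_nonneg η)
    nlinarith
  have W0 : 0 ≤ W := by positivity
  have s2 := mul_le_mul_of_nonneg_left η2 (show 0 ≤ 13 * W by positivity)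
  have s3 : δ * (416 * (W * C ^ 2)) ≤ 1 := by rw [hW]; linarith
  have s4 : δ * (416 * W) ≤ 1 := by
    have := mul_le_mul_of_nonneg_left hC2 (show 0 ≤ δ * (416 * W) by positivity)
    linarith
  set z := δ * x with hz
  have z0 : 0 ≤ z := by positivity
  have s5 : 3 / 4 * z ^ 2 ≤ a * z + δ * (6 * W * ρ ^ 2 + 26 * W * a ^ 2 +
      104 * (W * C ^ 2) * z ^ 2) := by
    have := mul_le_mul_of_nonneg_left (h.trans (show _ ≤ a * x + (6 * W * ρ ^ 2 + 26 * W * a ^ 2 +
      104 * (W * C ^ 2) * z ^ 2) by linarith)) hδ.le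
    rw [hz]; nlinarith
  have s6 := mul_le_mul_of_nonneg_right s3 (sq_nonneg z)
  have s7 := mul_le_mul_of_nonneg_right s4 (sq_nonneg ρ)
  have s8 := mul_le_mul_of_nonneg_right s4 (sq_nonneg a)
  have s9 : z ^ 2 / 2 ≤ a * z + (a ^ 2 + ρ ^ 2) / 16 := by nlinarith [sq_nonneg ρ]
  by_contra hc
  push Not at hc
  nlinarith [mul_nonneg ha hρ, mul_nonneg hρ z0, mul_nonneg ha z0]

namespace Cy
variable {M : Mu A} {mB : (ℝ → ℝ) → B → B} {i T S : B →L[ℝ] A} {P : A →L[ℝ] A} {C : ℝ}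
  (h : Cy M mB i T S P C)
include h

/-- **Peaked lower bound**, conjugated form -/
theorem pk {R : A →L[ℝ] A} {δ G ρ : ℝ} {ς κ : ℝ → ℝ} (hδ : 0 < δ) (hG : 0 ≤ G) (hρ : 0 ≤ ρ)
    (hς : Sm ς) (hκ : Sm κ) (s1 : ∀ t, |ς t| ≤ 1) (s2 : ∀ t, |deriv ς t| ≤ 1)
    (k1 : ∀ t, |κ t| ≤ 1) (k2 : ∀ t, κ t ≠ 1 → ς t ^ 2 = 1 ∧ deriv ς t = 0)
    (hR : ‖R‖ ≤ C * δ) (hR' : ∀ x, |⟪R x, M.m ς x⟫| ≤ δ / 4 * ‖x‖ ^ 2)
    (hs : δ * (416 * C ^ 4 * (G + 2 * C) ^ 2) ≤ 1) (u : B)
    (row : ‖M.m κ (P (i u))‖ ≤ ρ + G * ‖T u‖) :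
    δ * ‖i u‖ ≤ 3 * (‖T u + S u + δ • M.m ς (i u) + R (i u)‖ + ρ) := by
  have hC := h.one
  set f := T u + S u + δ • M.m ς (i u) + R (i u) with hf
  set x := i u with hx
  set η := ‖T u + S u‖ with hη
  set y := ‖M.m κ x‖ with hy
  have δ1 : δ ≤ 1 := by
    have a1 : 1 ≤ C ^ 4 := one_le_pow₀ hC
    have a2 : 1 ≤ (G + 2 * C) ^ 2 := one_le_pow₀ (by linarith)
    have a3 : 1 ≤ 416 * C ^ 4 * (G + 2 * C) ^ 2 := by nlinarith
    nlinarith
  have nς : ‖M.m ς x‖ ≤ ‖x‖ := by simpa using M.le hς s1 x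
  have e1 : η ≤ ‖f‖ + 2 * C * δ * ‖x‖ := by
    have e : T u + S u = f - δ • M.m ς x - R x := by rw [hf]; abel
    have a1 := (norm_sub_le (f - δ • M.m ς x) (R x)).trans (add_le_add_left (norm_sub_le _ _) _)
    rw [← e, norm_smul, Real.norm_of_nonneg hδ.le] at a1
    have a2 := ContinuousLinearMap.le_of_opNorm_le _ hR x
    have a3 := mul_le_mul_of_nonneg_left nς hδ.le
    have a4 := mul_le_mul_of_nonneg_right hC (show 0 ≤ δ * ‖x‖ by positivity)
    linarith
  have eT : ‖T u‖ ≤ η := h.op.left_le u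
  have eS : ‖S u‖ ≤ η := h.op.right_le u
  have η0 : 0 ≤ η := norm_nonneg _
  have eP : ‖x - P x‖ ≤ 2 * C * η := by
    have := mul_le_mul_of_nonneg_left (add_le_add eS eT) (by linarith : 0 ≤ C)
    linarith [h.low u]
  have ey : y ≤ ρ + (G + 2 * C) * η := by
    have e : M.m κ x = M.m κ (P x) + M.m κ (x - P x) := by rw [← map_add]; simp
    have a1 := norm_add_le (M.m κ (P x)) (M.m κ (x - P x))
    rw [← e] at a1
    have a2 := M.le hκ k1 (x - P x)
    have a3 := mul_le_mul_of_nonneg_left eT hG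
    linarith
  have loc : ∀ b, Sm b → (∀ t, |b t| ≤ 1) → (∀ t, κ t ≠ 1 → b t = 0) →
      ‖M.m b x‖ ≤ y ∧ |⟪M.m b x, x⟫| ≤ y ^ 2 := fun b hb b1 b0 => by
    have e1 : b = b * κ := by
      ext t; by_cases h1 : κ t = 1
      · simp [h1]
      · simp [b0 t h1]
    have e2 : b = κ * (b * κ) := by
      ext t; by_cases h1 : κ t = 1
      · simp [h1]
      · simp [b0 t h1]
    have n1 : ‖M.m b (M.m κ x)‖ ≤ y := by simpa using M.le hb b1 (M.m κ x)
    constructor
    · rwa [e1, ← M.mm hb hκ]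
    · rw [e2, ← M.mm hκ (hb.mul hκ), M.sym hκ, ← M.mm hb hκ]
      exact (abs_real_inner_le_norm _ _).trans
        ((mul_le_mul_of_nonneg_right n1 (norm_nonneg _)).trans_eq (sq y).symm)
  obtain ⟨d1, d2⟩ := loc _ hς.deriv s2 fun t ht => (k2 t ht).2
  obtain ⟨-, d3⟩ := loc (1 - ς * ς) (Sm.one.sub (hς.mul hς)) (fun t => by
    have := abs_le_one_iff_mul_self_le_one.1 (s1 t)
    rw [Pi.sub_apply, Pi.one_apply, Pi.mul_apply, abs_le]
    constructor <;> nlinarith [mul_self_nonneg (ς t)]) fun t ht => by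
      rw [Pi.sub_apply, Pi.one_apply, Pi.mul_apply, ← sq, (k2 t ht).1, sub_self]
  rw [M.sub Sm.one (hς.mul hς), M.one, sub_apply, one_apply_eq_self, inner_sub_left, ← M.mm hς hς,
    M.sym hς, real_inner_self_eq_norm_sq, real_inner_self_eq_norm_sq] at d3
  have t1 : 2 * ⟪T u, M.m ς x⟫ = -⟪M.m (deriv ς) x, x⟫ := by
    have := h.op.skew (mB ς u) u
    rw [h.Tm ς hς, h.im ς hς, inner_add_left, M.sym hς, real_inner_comm (T u)] at this
    linarith
  have t2 : |⟪S u, M.m ς x⟫| ≤ η * (2 * C * η) + C * (2 * C * η + η) * (η + y) := by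
    have e : M.m ς x = M.m ς (x - P x) + P (i (mB ς u)) := by
      rw [h.im ς hς, h.Pm ς hς, ← map_add]; simp [hx]
    rw [e, inner_add_right]
    refine (abs_add_le _ _).trans (add_le_add ((abs_real_inner_le_norm _ _).trans
      (mul_le_mul eS ((by simpa using M.le hς s1 (x - P x) : _ ≤ ‖x - P x‖).trans eP)
        (norm_nonneg _) η0)) ((h.quad u _).trans ?_))
    have a1 : ‖T (mB ς u)‖ ≤ η + y := by
      rw [h.Tm ς hς]
      exact (norm_add_le _ _).trans (add_le_add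
        ((by simpa using M.le hς s1 (T u) : _ ≤ ‖T u‖).trans eT) d1)
    exact mul_le_mul (mul_le_mul_of_nonneg_left (add_le_add eP eT) (by linarith)) a1
      (norm_nonneg _) (by positivity)
  have t3 : ⟪f, M.m ς x⟫ = ⟪T u, M.m ς x⟫ + ⟪S u, M.m ς x⟫ + δ * ‖M.m ς x‖ ^ 2 +
      ⟪R x, M.m ς x⟫ := by
    rw [hf, inner_add_left, inner_add_left, inner_add_left, real_inner_smul_left,
      real_inner_self_eq_norm_sq]
  have t4 : ⟪f, M.m ς x⟫ ≤ ‖f‖ * ‖x‖ :=
    (real_inner_le_norm _ _).trans (mul_le_mul_of_nonneg_left nς (norm_nonneg _))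
  refine pk_arith hδ hC (by linarith) (norm_nonneg f) (norm_nonneg x) hρ η0 (norm_nonneg _) e1 ey
    hs ?_
  have u1 := abs_le.1 (hR' x)
  have u2 := abs_le.1 t2
  have u3 := abs_le.1 d2
  have u4 := mul_le_mul_of_nonneg_left (abs_le.1 d3).2 hδ.le
  have u5 := mul_le_mul_of_nonneg_right δ1 (sq_nonneg y)
  have hC2 : C ≤ C ^ 2 := by nlinarith
  have u6 := mul_le_mul_of_nonneg_right hC2 (sq_nonneg η)
  have u7 := mul_le_mul_of_nonneg_right hC2 (mul_nonneg η0 (norm_nonneg (M.m κ x)))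
  have u8 := mul_le_mul_of_nonneg_left (two_mul_le_add_sq η y) (sq_nonneg C)
  have u9 := mul_le_mul_of_nonneg_right (hC.trans hC2) (sq_nonneg y)
  nlinarith

/-- **Peaked lower bound** for `S = local + K` with `K` as in `KW` -/
theorem pk_wt {K : A →L[ℝ] A} {d C' δ ε G ρ : ℝ} {ψ ς κ : ℝ → ℝ} (hK : M.KW K d C') (hd : 0 < d)
    (Ks : ∀ u v, ⟪K u, v⟫ = ⟪u, K v⟫)
    (Sm' : ∀ b, Sm b → ∀ u, S (mB b u) - K (i (mB b u)) = M.m b (S u - K (i u)))
    (hδ : 0 < δ) (hG : 0 ≤ G) (hρ : 0 ≤ ρ) (hψ : Sm ψ) (hς : Sm ς) (hκ : Sm κ)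
    (e : deriv ψ = -δ • ς) (s1 : ∀ t, |ς t| ≤ 1) (s2 : ∀ t, |deriv ς t| ≤ ε) (ε1 : ε ≤ 1)
    (k1 : ∀ t, |κ t| ≤ 1) (k2 : ∀ t, κ t ≠ 1 → ς t ^ 2 = 1 ∧ deriv ς t = 0)
    (c1 : δ ≤ d / cS 0 / 4) (c2 : 2 * cR d C' ≤ C) (c3 : (δ + ε) * (8 * cR d C') ≤ 1)
    (hs : δ * (416 * C ^ 4 * (G + 2 * C) ^ 2) ≤ 1) (u : B)
    (row : ‖M.m κ (P (M.m (ex ψ) (i u)))‖ ≤ ρ + G * ‖T (mB (ex ψ) u)‖) :
    δ * ‖M.m (ex ψ) (i u)‖ ≤ 3 * (‖M.m (ex ψ) (T u + S u)‖ + ρ) := by
  have bψ : Bd 0 (deriv ψ) δ := fun t => by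
    rw [e, Pi.smul_apply, smul_eq_mul, abs_mul, abs_neg, abs_of_pos hδ]
    exact mul_le_of_le_one_right hδ.le (s1 t)
  have c0 := hK.cR_nonneg hd
  have := h.pk (R := Mu.cj M K ψ) hδ hG hρ hς hκ s1 (fun t => (s2 t).trans ε1) k1 k2
    ((hK.norm_cj hd hψ bψ c1).trans (by nlinarith)) (fun x =>
      (hK.inner_cj hd Ks hψ bψ c1 hς s2 s1 x).trans (mul_le_mul_of_nonneg_right
        (by nlinarith [mul_le_mul_of_nonneg_left c3 hδ.le]) (sq_nonneg _))) hs (mB (ex ψ) u)
    (by rwa [h.im _ hψ.ex])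
  rw [h.im _ hψ.ex] at this
  convert this using 4
  have e1 : M.m (deriv (ex ψ)) (i u) = -(δ • M.m ς (M.m (ex ψ) (i u))) := by
    rw [deriv_ex hψ, e, M.mm hς hψ.ex, mul_smul_comm, M.smul _ (hψ.ex.mul hς), mul_comm]; simp
  have e2 := Sm' _ hψ.ex u
  rw [h.im _ hψ.ex, sub_eq_iff_eq_add] at e2
  have e3 : M.m (ex (-ψ)) (M.m (ex ψ) (i u)) = i u := by
    rw [M.mm hψ.neg.ex hψ.ex, mul_comm, ex_mul_neg, M.one]; rfl
  rw [h.Tm _ hψ.ex, e1, e2, Mu.cj]
  simp only [sub_apply, mul_apply_eq_comp, e3, map_add, map_sub]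
  abel

end Cy

end Crest.Agent.X212.Dec35
end
end

-- ▼ part X212/Rf65/Cyi
section

/-! Row 212 (helper65): abstract cylinders (`Cyf70.CylD`) as instances of `Dec35.Cy`. -/

set_option autoImplicit false
set_option linter.unusedSectionVars false
noncomputable section
open Set Function Filter MeasureTheory
open scoped RealInnerProductSpace BoundedContinuousFunction Topology

namespace Crest.Agent.X212.Rf65
open Neck67 Cyf70 Dec35

open Classical in
/-- a function of class `Sm` as a bounded continuous function -/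
def bc (b : ℝ → ℝ) : ℝ →ᵇ ℝ :=
  if h : Sm b then .ofNormedAddCommGroup b h.cd.continuous _ (h.bd 0).choose_spec else 0

theorem bc_apply {b : ℝ → ℝ} (h : Sm b) (t : ℝ) : bc b t = b t := by rw [bc, dif_pos h]; rfl

theorem bc_der {b : ℝ → ℝ} (h : Sm b) (t : ℝ) : HasDerivAt (bc b) (bc (deriv b) t) t := by
  rw [bc_apply h.deriv, show (bc b : ℝ → ℝ) = b from funext (bc_apply h)]
  exact (h.diff t).hasDerivAt

variable {X₁ X₀ Z : Type*} [NormedAddCommGroup X₁] [NormedSpace ℝ X₁] [NormedAddCommGroup X₀]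
  [InnerProductSpace ℝ X₀] [NormedAddCommGroup Z] [NormedSpace ℝ Z]

theorem dense_loc : Dense {u : Lam X₀ | ∃ n : ℕ, ∀ b, Sm b → (∀ t : ℝ, |t| ≤ n → b t = 0) →
    mt X₀ (bc b) u = 0} := by
  refine (Lp.dense_hasCompactSupport_contDiff (μ := volume) (F := X₀) (p := 2) (by simp)).mono ?_
  rintro u ⟨g, h1, h2, -⟩
  obtain ⟨r, hr⟩ := h2.isCompact.isBounded.subset_closedBall 0
  refine ⟨⌈r⌉₊, fun b hb h0 => R.ext' (R.ma _ _ h1) R.zero fun t => ?_⟩
  by_cases ht : |t| ≤ r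
  · rw [bc_apply hb, h0 t (ht.trans (Nat.le_ceil r)), zero_smul]
  · rw [image_eq_zero_of_notMem_tsupport (f := g) fun h => ht (by simpa using hr h)]; simp

variable (X₀) in
/-- the multiplications by functions of time on `L²(ℝ, X₀)` -/
def muL : Mu (Lam X₀) where
  m b := mt X₀ (bc b)
  one := ContinuousLinearMap.ext fun f => R.ext' (by rr) (R.rfl f) fun t => by
    simp [bc_apply Sm.one]
  add hb hc := ContinuousLinearMap.ext fun f => R.ext' (by rr)
    ((R.ma _ _ (R.rfl f)).add (R.ma _ _ (R.rfl f))) fun t => by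
      simp [bc_apply hb, bc_apply hc, bc_apply (hb.add hc), add_smul]
  smul a hb := ContinuousLinearMap.ext fun f => R.ext' (by rr) ((R.ma _ _ (R.rfl f)).smul a)
    fun t => by simp [bc_apply hb, bc_apply (hb.smul a), mul_smul]
  mul hb hc := ContinuousLinearMap.ext fun f => R.ext' (by rr) (R.ma _ _ (R.ma _ _ (R.rfl f)))
    fun t => by simp [bc_apply hb, bc_apply hc, bc_apply (hb.mul hc), mul_smul]
  sym _ u v := inner_ma _ (fun _ _ => rfl) u v
  bd {b M} hb h := ContinuousLinearMap.opNorm_le_bound _ ((abs_nonneg _).trans (h 0)) fun f =>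
    R.norm_le (by rr) (R.rfl f) (ae_of_all _ fun t => by
      rw [norm_smul, bc_apply hb]
      exact mul_le_mul_of_nonneg_right (h t) (norm_nonneg _))
  loc := dense_loc

theorem muL_m (b : ℝ → ℝ) : (muL X₀).m b = mt X₀ (bc b) := rfl

variable {i L : X₁ →L[ℝ] X₀} {J : Z →L[ℝ] Lam X₁} {T : Z →L[ℝ] Lam X₀}

open Classical in
/-- the multiplications on `Z` -/
def mZ (J : Z →L[ℝ] Lam X₁) (b : ℝ → ℝ) (u : Z) : Z :=
  if h : ∃ v, J v = mt X₁ (bc b) (J u) then h.choose else 0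

theorem J_mZ (h : CylD 1 i L J T) {b : ℝ → ℝ} (hb : Sm b) (u : Z) :
    J (mZ J b u) = mt X₁ (bc b) (J u) := by
  have e : ∃ v, J v = mt X₁ (bc b) (J u) :=
    let ⟨s, hs⟩ := h.exists_mul (bc_der hb); ⟨s u, (hs u).1⟩
  rw [mZ, dif_pos e]; exact e.choose_spec

theorem mZ_eq (h : CylD 1 i L J T) {b : ℝ → ℝ} (hb : Sm b) {u v : Z}
    (e : J v = mt X₁ (bc b) (J u)) : mZ J b u = v := h.injJ ((J_mZ h hb u).trans e.symm)

theorem cp_mt {X Y : Type*} [NormedAddCommGroup X] [NormedSpace ℝ X] [NormedAddCommGroup Y]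
    [NormedSpace ℝ Y] (a : X →L[ℝ] Y) (b : ℝ →ᵇ ℝ) (f : Lam X) :
    cp a (mt X b f) = mt Y b (cp a f) := R.ext' (by rr) (by rr) fun t => by simp

/-- an operator `S` on the cylinder with a slice-wise projector: only `low` and `quad` remain -/
theorem cy_of (h : CylD 1 i L J T) {S : Z →L[ℝ] Lam X₀} (op : CylOp (cp i ∘L J) T S)
    (P : X₀ →L[ℝ] X₀) {C : ℝ} (hC : 1 ≤ C)
    (low : ∀ u, ‖cp i (J u) - cp P (cp i (J u))‖ ≤ C * (‖S u‖ + ‖T u‖))
    (quad : ∀ u w, |⟪S u, cp P (cp i (J w))⟫| ≤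
      C * (‖cp i (J u) - cp P (cp i (J u))‖ + ‖T u‖) * ‖T w‖) :
    Cy (muL X₀) (mZ J) (cp i ∘L J) T S (cp P) C where
  op := op
  one := hC
  im b hb u := by
    rw [ContinuousLinearMap.comp_apply, J_mZ h hb, cp_mt]; rfl
  Tm b hb u := by
    rw [h.T_mul (bc_der hb) (J_mZ h hb u), one_smul]; rfl
  Pm b _ x := cp_mt P _ x
  low := low
  quad := quad

variable (i L) in
/-- the kernel of the slice operator -/
def kerI : Submodule ℝ X₀ := L.ker.map (i : X₁ →ₗ[ℝ] X₀)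

instance [FiniteDimensional ℝ L.ker] : FiniteDimensional ℝ (kerI i L) := by
  unfold kerI; infer_instance

variable [CompleteSpace X₁] [FiniteDimensional ℝ L.ker]

theorem slice_gap {K : ℝ} (hK : Fred93.Est L i K) (hi : IsCompactOperator i) (inj : Injective i) :
    ∃ c, 1 ≤ c ∧ ∀ v, ‖i v - (kerI i L).starProjection (i v)‖ ≤ c * ‖L v‖ := by
  obtain ⟨c, hc, hb⟩ := abs_gap hK hi inj
  refine ⟨max 1 (‖i‖ * c), le_max_left _ _, fun v => ?_⟩
  obtain ⟨k, h1, h2⟩ := (kerI i L).starProjection_apply_mem (i v)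
  have h3 : L k = 0 := h1
  have h4 : i k = (kerI i L).starProjection (i v) := h2
  have h5 := hb (v - k) fun y hy => by
    rw [map_sub, h4]
    exact (kerI i L).starProjection_inner_eq_zero _ _ ⟨y, hy, rfl⟩
  rw [map_sub, h3, sub_zero] at h5
  rw [← h4, ← map_sub]
  refine (i.le_opNorm _).trans ((mul_le_mul_of_nonneg_left h5 (norm_nonneg _)).trans ?_)
  rw [← mul_assoc]
  exact mul_le_mul_of_nonneg_right (le_max_right _ _) (norm_nonneg _)

/-- **Local cylinder operators** satisfy the hypotheses of the peaked lower bound. -/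
theorem cy_loc (h : CylD 1 i L J T) {K : ℝ} (hK : Fred93.Est L i K) (hi : IsCompactOperator i) :
    ∃ C, Cy (muL X₀) (mZ J) (cp i ∘L J) T (cp L ∘L J) (cp (kerI i L).starProjection) C := by
  obtain ⟨c, hc, hb⟩ := slice_gap hK hi h.inj
  refine ⟨c, cy_of h (h.cylOp h.sym) _ hc (fun u => ?_) fun u w => ?_⟩
  · refine le_trans ?_ (mul_le_mul_of_nonneg_left (le_add_of_nonneg_right (norm_nonneg _))
      (zero_le_one.trans hc))
    exact R.norm_le (by rr) (R.ma 1 L (R.rfl (J u))) (ae_of_all _ fun t => by simpa using hb _)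
  · rw [ContinuousLinearMap.comp_apply, R.inner (R.ma 1 L (R.rfl (J u)))
      (R.ma 1 _ (R.ma 1 i (R.rfl (J w)))), integral_eq_zero_of_ae (ae_of_all _ fun t => ?_),
      abs_zero]
    · positivity
    obtain ⟨k, h1, h2⟩ := (kerI i L).starProjection_apply_mem (i (J w t))
    have h3 : L k = 0 := h1
    have h4 : i k = (kerI i L).starProjection (i (J w t)) := h2
    simp [← h4, h.sym, h3]

end Crest.Agent.X212.Rf65
end
end

-- ▼ part X212/Cyf70/Nl
section

/-!
# Row 212, CYLF (helper70): the slice part of a translation invariant non-local operator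
-/

set_option autoImplicit false
set_option linter.unusedSectionVars false
open Function Filter Topology Module Set MeasureTheory
open scoped RealInnerProductSpace BoundedContinuousFunction ContDiff

noncomputable section
namespace Crest.Agent.X212.Cyf70
open Neck67 (Sm Bd ex up dn cS)
open Dec35 Rf65
open ContinuousLinearMap (adjoint)

variable {X : Type*} [NormedAddCommGroup X] [InnerProductSpace ℝ X] [CompleteSpace X]
  {K : Lam X →L[ℝ] Lam X} {d C : ℝ}

theorem le_of_inner {A : Type*} [NormedAddCommGroup A] [InnerProductSpace ℝ A] {v : A} {c : ℝ}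
    (h : ∀ y, ⟪v, y⟫ ≤ c * ‖y‖) (hc : 0 ≤ c := by positivity) : ‖v‖ ≤ c := by
  have := h v
  rw [real_inner_self_eq_norm_mul_norm] at this
  rcases (norm_nonneg v).eq_or_lt with h0 | h0
  · rwa [← h0]
  · exact le_of_mul_le_mul_right this h0

/-- separated supports -/
theorem sep_le {A : Type*} [NormedAddCommGroup A] [InnerProductSpace ℝ A] {M : Mu A}
    {K : A →L[ℝ] A} (h : M.KW K d C) (hd : 0 ≤ d) {b c : ℝ → ℝ} (hb : Sm b) (hc : Sm c)
    {β γ p a : ℝ} (h1 : ∀ t, |b t| ≤ β) (h2 : ∀ t, |c t| ≤ γ) (ha : 1 ≤ a)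
    (h3 : ((∀ t, b t ≠ 0 → t ≤ p) ∧ ∀ t, c t ≠ 0 → p + a ≤ t) ∨
      ((∀ t, c t ≠ 0 → t ≤ p) ∧ ∀ t, b t ≠ 0 → p + a ≤ t)) :
    ‖M.m b * K * M.m c‖ ≤ C * (β * γ) * Real.exp (-(d / cS 0 * a)) := by
  have cS0 : 0 < cS 0 := lt_of_lt_of_le one_pos (Neck67.one_le_cS 0)
  have slope : ∀ {w : ℝ → ℝ}, Bd 0 (deriv w) (a⁻¹ * cS 0) →
      Bd 0 (deriv ((d / cS 0 * a) • w)) d := fun {w} hw => by
    have e : deriv ((d / cS 0 * a) • w) = (d / cS 0 * a) • deriv w := by
      ext t; exact deriv_const_smul_field _ _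
    rw [e]
    refine (hw.smul _).mono (le_of_eq ?_)
    rw [abs_of_nonneg (by positivity)]; field_simp
  rcases h3 with ⟨s1, s2⟩ | ⟨s1, s2⟩
  · refine h.sep ((Neck67.sm_dn ha (p + a)).smul _) (slope (Neck67.bd_deriv_dn 0 ha _)) hb hc h1 h2
      (fun t ht => ?_) fun t ht => ?_
    · rw [Pi.smul_apply, Neck67.dn_one (by linarith) (by linarith [s1 t ht])]; simp
    · rw [Pi.smul_apply, Neck67.dn_zero (by linarith) (s2 t ht)]; simp
  · refine h.sep ((Neck67.sm_up ha p).smul _) (slope (Neck67.bd_deriv_up 0 ha _)) hb hc h1 h2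
      (fun t ht => ?_) fun t ht => ?_
    · rw [Pi.smul_apply, Neck67.up_one (by linarith) (s2 t ht)]; simp
    · rw [Pi.smul_apply, Neck67.up_zero (by linarith) (s1 t ht)]; simp

/-- an even bump function of integral one -/
def ph : ℝ → ℝ := (⟨1 / 2, 1, by norm_num, by norm_num⟩ : ContDiffBump (0 : ℝ)).normed volume

theorem ph_cont : Continuous ph := ContDiffBump.continuous_normed _
theorem ph_hcs : HasCompactSupport ph := ContDiffBump.hasCompactSupport_normed _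
theorem ph_neg (r : ℝ) : ph (-r) = ph r := ContDiffBump.normed_neg _ r
theorem ph_int : ∫ r, ph r = 1 := ContDiffBump.integral_normed _
theorem ph_zero {r : ℝ} (h : 1 ≤ |r|) : ph r = 0 := by
  by_contra h0
  have : r ∈ support ph := h0
  rw [ph, ContDiffBump.support_normed_eq] at this
  exact h.not_gt (by simpa using this)

/-- the bump in `L²` -/
def Ph : Lam ℝ := (ph_cont.memLp_of_hasCompactSupport ph_hcs).toLp ph

theorem R_Ph : R Ph ph := R.toLp _

variable (X) in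
/-- `a ↦ φ(t - r) a` -/
def Et (r : ℝ) : X →L[ℝ] Lam X := ten (tr ℝ (-r) Ph)

theorem R_Et (r : ℝ) (a : X) : R (Et X r a) fun t => ph (t + -r) • a := (R_Ph.tr _).ten a

theorem tr_Et (h r : ℝ) (a : X) : tr X h (Et X r a) = Et X (r - h) a :=
  R.ext' ((R_Et r a).tr h) (R_Et _ a) fun t => by congr 2; ring

theorem norm_ten_le (φ : Lam ℝ) (a : X) : ‖ten φ a‖ ≤ ‖φ‖ * ‖a‖ := by
  rw [mul_comm]
  exact R.norm_le ((R.rfl φ).ten a) (R.rfl φ) (ae_of_all _ fun t => by rw [norm_smul, mul_comm])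

theorem norm_Et (r : ℝ) (a : X) : ‖Et X r a‖ ≤ ‖Ph‖ * ‖a‖ := (norm_ten_le _ a).trans_eq (by rw [norm_tr])

theorem cont_Et : Continuous (Et X) := by
  have : LipschitzWith 1 (ten : Lam ℝ → X →L[ℝ] Lam X) := LipschitzWith.of_dist_le_mul fun φ ψ => by
    rw [dist_eq_norm, dist_eq_norm, NNReal.coe_one, one_mul]
    refine ContinuousLinearMap.opNorm_le_bound _ (norm_nonneg _) fun a =>
      le_trans (le_of_eq ?_) (norm_ten_le (φ - ψ) a)
    exact congrArg _ (show ten φ a - ten ψ a = _ from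
      R.ext' (by rt) (by rt) fun t => (sub_smul _ _ _).symm)
  exact this.continuous.comp ((cont_tr Ph).comp continuous_neg)

theorem ker_of_le {g : ℝ → X →L[ℝ] X} (hc : Continuous g) {f : ℝ → ℝ} (hb : ∀ r, ‖g r‖ ≤ f r)
    (hi : Integrable fun r => (1 + r ^ 2) * f r) : Ker g ∧ mo g ≤ ∫ r, (1 + r ^ 2) * f r := by
  have h1 : ∀ r, (1 + r ^ 2) * ‖g r‖ ≤ (1 + r ^ 2) * f r := fun r =>
    mul_le_mul_of_nonneg_left (hb r) (by positivity)
  have h2 : Integrable fun r => (1 + r ^ 2) * ‖g r‖ :=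
    hi.mono' (Continuous.aestronglyMeasurable (by fun_prop)) (ae_of_all _ fun r => by
      rw [Real.norm_of_nonneg (by positivity)]; exact h1 r)
  exact ⟨⟨hc, h2⟩, integral_mono h2 hi h1⟩

variable (X) in
/-- the bump as a kernel -/
def pI (r : ℝ) : X →L[ℝ] X := ph r • ContinuousLinearMap.id ℝ X

/-- the moment of the bump -/
def mp : ℝ := ∫ r, (1 + r ^ 2) * ‖ph r‖

theorem ker_mo : Ker (pI X) ∧ mo (pI X) ≤ mp :=
  ker_of_le (ph_cont.smul continuous_const) (fun r => ContinuousLinearMap.opNorm_le_bound _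
    (norm_nonneg _) fun x => (norm_smul (ph r) x).le) (Continuous.integrable_of_hasCompactSupport
    (by have := ph_cont; fun_prop) (HasCompactSupport.mul_left ph_hcs.norm))

variable (X) in
theorem ker_ph : Ker (pI X) := ker_mo.1

theorem mo_ph : mo (pI X) ≤ mp := ker_mo.2

theorem mp_nonneg : 0 ≤ mp := integral_nonneg fun _ => by positivity

variable (X) in
/-- smoothing -/
def Cs : Lam X →L[ℝ] Lam X := (ker_ph X).cv

theorem cp_ph (r : ℝ) (x : Lam X) : cp (pI X r) x = ph r • x :=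
  R.ext' (by rt) (by rt) fun t => by simp [pI]

theorem cp_int_ph (x : Lam X) : cp (∫ r, pI X r) x = x := by
  rw [(ker_ph X).cp_int]; simp only [cp_ph]; rw [integral_smul_const, ph_int, one_smul]

theorem norm_Cs (x : Lam X) : ‖Cs X x‖ ≤ mp * ‖x‖ :=
  ((ker_ph X).norm_cv x).trans (mul_le_mul_of_nonneg_right mo_ph (norm_nonneg _))

theorem Lip.Cs {x : Lam X} {D : ℝ} (h : Lip x D) : Lip (Cs X x) (mp * D) :=
  h.map (ker_ph X).tr_cv norm_Cs mp_nonneg

theorem Cs_sub {x : Lam X} {D : ℝ} (h : Lip x D) : ‖Cs X x - x‖ ≤ mp * D := by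
  have := (ker_ph X).cv_sub_le h
  rw [cp_int_ph] at this
  exact this.trans (mul_le_mul_of_nonneg_right mo_ph h.nonneg)

theorem Cs_even {x y : Lam X} {D D' : ℝ} (h : Lip x D) (h' : Lip y D') :
    |⟪Cs X x - x, y⟫| ≤ mp * (D * D') := by
  have := (ker_ph X).even (fun r => by rw [pI, ph_neg, pI]) h h'
  rw [cp_int_ph] at this
  exact this.trans (mul_le_mul_of_nonneg_right mo_ph (mul_nonneg h.nonneg h'.nonneg))

theorem Cs2_sub {x : Lam X} {D : ℝ} (h : Lip x D) : ‖Cs X (Cs X x) - x‖ ≤ (mp * mp + mp) * D := by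
  rw [← sub_add_sub_cancel _ (Cs X x)]
  exact (norm_add_le _ _).trans ((add_le_add (Cs_sub h.Cs) (Cs_sub h)).trans_eq (by ring))

theorem Cs2_even {x y : Lam X} {D D' : ℝ} (h : Lip x D) (h' : Lip y D') :
    |⟪Cs X (Cs X x) - x, y⟫| ≤ (mp * mp + mp) * (D * D') := by
  rw [← sub_add_sub_cancel _ (Cs X x), inner_add_left]
  exact (abs_add_le _ _).trans ((add_le_add (Cs_even h.Cs h') (Cs_even h h')).trans_eq (by ring))

theorem Cs_symm (x y : Lam X) : ⟪Cs X x, y⟫ = ⟪x, Cs X y⟫ := by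
  rw [real_inner_comm (Cs X y), Cs, Ker.inner_cv', Ker.inner_cv', ← integral_neg_eq_self]
  simp only [cp_ph, real_inner_smul_left, ph_neg, inner_tr _ x, neg_neg]
  simp only [real_inner_comm x]

theorem inner_Cs (w y : Lam X) : ⟪Cs X w, y⟫ = ∫ s, ⟪w, Et X s (y s)⟫ := by
  rw [Cs, Ker.inner_cv]
  congr 1; funext s
  rw [R.inner (R.rfl w) (R_Et s _),
    ← integral_add_left_eq_self (fun t => ⟪w t, ph (t + -s) • y s⟫) s]
  simp [pI, real_inner_smul_left, real_inner_smul_right]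

theorem Cs_comm (ht : ∀ r x, tr X r (K x) = K (tr X r x)) (x : Lam X) :
    Cs X (K x) = K (Cs X x) := by
  rw [Cs, Ker.map_cv, Ker.cv_apply]; simp only [cp_ph, map_smul, ht]

/-- symmetric, translation invariant, exponentially decaying kernel -/
structure TK (K : Lam X →L[ℝ] Lam X) (d C : ℝ) : Prop where
  sym : ∀ x y, ⟪K x, y⟫ = ⟪x, K y⟫
  ti : ∀ r x, tr X r (K x) = K (tr X r x)
  kw : (muL X).KW K d C
  pos : 0 < d

/-- the smoothed kernel -/
def gk (K : Lam X →L[ℝ] Lam X) (r : ℝ) : X →L[ℝ] X := adjoint (Et X 0) ∘L K ∘L Et X r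

/-- **the slice part** -/
def kk (K : Lam X →L[ℝ] Lam X) : X →L[ℝ] X := ∫ r, gk K r

theorem inner_gk (r : ℝ) (a b : X) : ⟪gk K r a, b⟫ = ⟪K (Et X r a), Et X 0 b⟫ :=
  ContinuousLinearMap.adjoint_inner_left (Et X 0) b (K (Et X r a))

theorem int_exp {e : ℝ} (he : 0 < e) :
    Integrable fun r : ℝ => (1 + r ^ 2) * Real.exp (e * (5 - |r|)) := by
  refine (integrable_inv_one_add_sq.const_mul (2 * (1 + 24 / e ^ 4) * Real.exp (e * 5))).mono'
    (Continuous.aestronglyMeasurable (by fun_prop)) (ae_of_all _ fun r => ?_)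
  have h1 := Real.pow_div_factorial_le_exp _ (mul_nonneg he.le (abs_nonneg r)) 4
  have h2 := Real.one_le_exp (mul_nonneg he.le (abs_nonneg r))
  have h3 : r ^ 4 ≤ 24 / e ^ 4 * Real.exp (e * |r|) := by
    rw [div_mul_eq_mul_div, le_div_iff₀ (by positivity)]
    rw [mul_pow, show |r| ^ 4 = r ^ 4 from Even.pow_abs (by decide) r] at h1
    norm_num [Nat.factorial] at h1
    linarith
  rw [Real.norm_of_nonneg (by positivity), mul_sub, Real.exp_sub, ← div_eq_mul_inv,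
    le_div_iff₀ (by positivity), mul_div_assoc', div_mul_eq_mul_div, div_le_iff₀ (by positivity)]
  have h4 : (1 + r ^ 2) ^ 2 ≤ 2 * (1 + 24 / e ^ 4) * Real.exp (e * |r|) := by
    nlinarith [sq_nonneg (1 - r ^ 2)]
  nlinarith [mul_le_mul_of_nonneg_left h4 (Real.exp_pos (e * 5)).le]

/-- the constant of the moment -/
def cM (d : ℝ) : ℝ := ‖Ph‖ ^ 2 * ∫ r : ℝ, (1 + r ^ 2) * Real.exp (d / cS 0 * (5 - |r|))

namespace TK
variable (h : TK K d C)
include h

theorem norm_le : ‖K‖ ≤ C := h.kw.norm_le h.pos.le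

theorem nonneg : 0 ≤ C := le_trans (norm_nonneg K) h.norm_le

theorem gk_neg (r : ℝ) (a b : X) : ⟪gk K (-r) a, b⟫ = ⟪a, gk K r b⟫ := by
  rw [real_inner_comm (gk K r b), inner_gk, inner_gk, h.sym, real_inner_comm,
    show Et X (-r) a = tr X r (Et X 0 a) by rw [tr_Et, zero_sub], real_inner_comm, inner_tr, h.ti,
    tr_Et, zero_sub, neg_neg, real_inner_comm]

theorem norm_gk (r : ℝ) : ‖gk K r‖ ≤ C * (‖Ph‖ ^ 2 * Real.exp (d / cS 0 * (5 - |r|))) := by
  have C0 : 0 ≤ C := h.nonneg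
  have e0 : 0 ≤ d / cS 0 := div_nonneg h.pos.le (zero_le_one.trans (Neck67.one_le_cS 0))
  let b : ℝ → ℝ → ℝ := fun s => up (s - 2) 1 * dn (s + 2) 1
  have sb : ∀ s, Sm (b s) := fun s => (Neck67.sm_up le_rfl _).mul (Neck67.sm_dn le_rfl _)
  have b1 : ∀ s t, |b s t| ≤ 1 := fun s t => by
    have h1 := Neck67.up_mem (s - 2) 1 t
    have h2 := Neck67.dn_mem (s + 2) 1 t
    exact (abs_of_nonneg (mul_nonneg h1.1 h2.1)).trans_le (mul_le_one₀ h1.2 h2.1 h2.2)
  have b2 : ∀ s t, b s t ≠ 0 → s - 2 ≤ t ∧ t ≤ s + 2 := fun s t ht =>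
    ⟨not_lt.1 fun h => ht (by simp [b, Neck67.up_zero one_pos h.le]),
      not_lt.1 fun h => ht (by simp [b, Neck67.dn_zero one_pos h.le])⟩
  have b3 : ∀ s a, (muL X).m (b s) (Et X s a) = Et X s a := fun s a =>
    R.ext' ((R_Et s a).ma _ _) (R_Et s a) fun t => by
      by_cases ht : 1 ≤ |t + -s|
      · simp [ph_zero ht]
      · have := abs_lt.1 (not_le.1 ht)
        simp [bc_apply (sb s), b, Neck67.up_one (p := s - 2) (t := t) one_pos (by linarith),
          Neck67.dn_one (q := s + 2) (t := t) one_pos (by linarith)]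
  have key : ‖(muL X).m (b 0) * K * (muL X).m (b r)‖ ≤ C * Real.exp (d / cS 0 * (5 - |r|)) := by
    by_cases h5 : |r| ≤ 5
    · have := h.kw.sep Neck67.Sm.zero (fun t => by simpa using h.pos.le) (sb 0) (sb r) (b1 0) (b1 r)
        (D := 0) (fun _ _ => le_rfl) fun _ _ => le_rfl
      refine this.trans ?_
      rw [mul_one, mul_one]
      exact mul_le_mul_of_nonneg_left (Real.exp_le_exp.2 (by
        rw [neg_zero]; exact mul_nonneg e0 (by linarith))) C0
    · have := sep_le h.kw h.pos.le (sb 0) (sb r) (b1 0) (b1 r) (a := |r| - 4)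
        (p := if 0 ≤ r then 2 else r + 2) (by linarith) (by
          split_ifs with h0
          · rw [abs_of_nonneg h0]
            exact .inl ⟨fun t ht => by linarith [(b2 0 t ht).2], fun t ht => by
              linarith [(b2 r t ht).1]⟩
          · rw [abs_of_neg (not_le.1 h0)]
            exact .inr ⟨fun t ht => (b2 r t ht).2, fun t ht => by linarith [(b2 0 t ht).1]⟩)
      refine this.trans ?_
      rw [mul_one, mul_one]
      exact mul_le_mul_of_nonneg_left (Real.exp_le_exp.2 (by nlinarith)) C0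
  refine ContinuousLinearMap.opNorm_le_bound _ (by positivity) fun a => ?_
  refine le_of_inner fun y => ?_
  rw [inner_gk, ← b3 r a, ← b3 0 y, ← (muL X).sym (sb 0)]
  have h1 := ContinuousLinearMap.le_of_opNorm_le_of_le _ key (norm_Et r a)
  refine (real_inner_le_norm _ _).trans ((mul_le_mul h1 (norm_Et 0 y) (norm_nonneg _)
    (by positivity)).trans_eq (by ring))

theorem ker_mo : Ker (gk K) ∧ mo (gk K) ≤ cM d * C := by
  have e0 : 0 < d / cS 0 := div_pos h.pos (one_pos.trans_le (Neck67.one_le_cS 0))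
  have := ker_of_le (g := gk K) (continuous_const.clm_comp (continuous_const.clm_comp cont_Et))
    h.norm_gk (((int_exp e0).const_mul (C * ‖Ph‖ ^ 2)).congr (ae_of_all _ fun r => by ring))
  refine ⟨this.1, this.2.trans_eq ?_⟩
  rw [cM, mul_comm _ C, ← mul_assoc, ← integral_const_mul]
  congr 1; funext r; ring

theorem cv_eq (x : Lam X) : h.ker_mo.1.cv x = Cs X (K (Cs X x)) := by
  refine ext_inner_right ℝ fun y => ?_
  rw [Ker.inner_cv, inner_Cs]
  congr 1; funext s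
  rw [h.sym, Cs_symm, real_inner_comm _ x, inner_Cs,
    ← integral_add_left_eq_self (fun t => ⟪K (Et X s (y s)), Et X t (x t)⟫) s]
  congr 1; funext r
  rw [inner_gk, show Et X 0 (y s) = tr X s (Et X s (y s)) by rw [tr_Et, sub_self],
    real_inner_comm, inner_tr, h.ti, tr_Et, h.sym, sub_neg_eq_add, add_comm r]

theorem inner_kk (a b : X) : ⟪kk K a, b⟫ = ∫ r, ⟪gk K r a, b⟫ := by
  have := ((innerSL ℝ b ∘L ContinuousLinearMap.apply ℝ X a).integral_comp_comm
    h.ker_mo.1.int').symm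
  simpa only [ContinuousLinearMap.comp_apply, ContinuousLinearMap.apply_apply, innerSL_apply_apply,
    kk, real_inner_comm _ b] using this

theorem kk_symm (a b : X) : ⟪kk K a, b⟫ = ⟪a, kk K b⟫ := by
  rw [real_inner_comm (kk K b), h.inner_kk, h.inner_kk, ← integral_neg_eq_self]
  simp only [h.gk_neg, real_inner_comm a]

theorem norm_kk : ‖kk K‖ ≤ cM d * C := by
  have := (h.ker_mo.1.bd h.ker_mo.1.cont (c := 1) fun r => by
    nlinarith [norm_nonneg (gk K r), mul_nonneg (sq_nonneg r) (norm_nonneg (gk K r))]).2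
  rw [mul_one] at this
  exact this.trans h.ker_mo.2

theorem cM_nonneg : 0 ≤ cM d * C := (mo_nonneg _).trans h.ker_mo.2

theorem split (x : Lam X) : K x - cp (kk K) x =
    (h.ker_mo.1.cv x - cp (kk K) x) - K (Cs X (Cs X x) - x) := by
  rw [h.cv_eq, Cs_comm h.ti, map_sub]; abel

theorem est {x : Lam X} {D : ℝ} (hx : Lip x D) :
    ‖K x - cp (kk K) x‖ ≤ (cM d * C + C * (mp * mp + mp)) * D := by
  have h1 := (h.ker_mo.1.cv_sub_le hx).trans (mul_le_mul_of_nonneg_right h.ker_mo.2 hx.nonneg)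
  have h2 := ContinuousLinearMap.le_of_opNorm_le_of_le _ h.norm_le (Cs2_sub hx)
  rw [h.split]
  exact (norm_sub_le _ _).trans ((add_le_add h1 h2).trans_eq (by ring))

end TK

/-- `k` is the slice part of `K`, second order vanishing on the range of `P` -/
structure NK (K : Lam X →L[ℝ] Lam X) (k P : X →L[ℝ] X) (M : ℝ) : Prop where
  sym : ∀ x y, ⟪K x, y⟫ = ⟪x, K y⟫
  ti : ∀ r x, tr X r (K x) = K (tr X r x)
  ks : ∀ a b, ⟪k a, b⟫ = ⟪a, k b⟫
  est : ∀ x D, Lip x D → ‖K x - cp k x‖ ≤ M * D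
  quad : ∀ x y D D', Lip x D → Lip y D' →
    |⟪K (cp P x) - cp k (cp P x), cp P y⟫| ≤ M * (D * D')

/-- `P` symmetric, the smoothed kernel symmetric on the range of `P` -/
theorem TK.nk (h : TK K d C) {P : X →L[ℝ] X} (hP : ∀ a b, ⟪P a, b⟫ = ⟪a, P b⟫)
    (hr : ∀ r a b, ⟪gk K r (P a), P b⟫ = ⟪P a, gk K r (P b)⟫) : ∃ M, 0 ≤ M ∧ NK K (kk K) P M := by
  obtain ⟨hk, -⟩ := h.ker_mo
  obtain ⟨E, hE⟩ : ∃ E, E = cM d * C + C * (mp * mp + mp) := ⟨_, rfl⟩
  have mp0 := mp_nonneg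
  have E0 : 0 ≤ E := by have := h.cM_nonneg; have := h.nonneg; rw [hE]; positivity
  let g : ℝ → X →L[ℝ] X := fun r => P ∘L gk K r ∘L P
  obtain ⟨hg, -⟩ := ker_of_le (g := g) (continuous_const.clm_comp (hk.cont.clm_comp continuous_const))
    (f := fun r => ‖P‖ * (‖gk K r‖ * ‖P‖)) (fun r => (P.opNorm_comp_le _).trans
      (mul_le_mul_of_nonneg_left ((gk K r).opNorm_comp_le P) (norm_nonneg P)))
    ((hk.int.const_mul (‖P‖ * ‖P‖)).congr (ae_of_all _ fun r => by ring))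
  have ev : ∀ r, g (-r) = g r := fun r => ContinuousLinearMap.ext fun a =>
    ext_inner_right ℝ fun b => by simp only [g, ContinuousLinearMap.comp_apply, hP, h.gk_neg, hr]
  refine ⟨E + (mo g + (mp * mp + mp) * ‖P‖ * (E * ‖P‖) + (mp * mp + mp) * ‖P‖ * (‖kk K‖ * ‖P‖)),
    by have := mo_nonneg g; positivity, h.sym, h.ti, h.kk_symm, fun x D hx => ?_,
    fun x y D D' hx hy => ?_⟩
  · refine (hE ▸ h.est hx).trans (mul_le_mul_of_nonneg_right (le_add_of_nonneg_right ?_) hx.nonneg)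
    have := mo_nonneg g; positivity
  have sP := inner_ma (X := X) 1 hP
  have e1 : ⟪hk.cv (cp P x) - cp (kk K) (cp P x), cp P y⟫ = ⟪hg.cv x - cp (∫ r, g r) x, y⟫ := by
    rw [← sP, map_sub, hk.map_cv, kk, hk.cp_int, hg.cv_apply, hg.cp_int,
      ← (cp P).integral_comp_comm (hk.int_cp _)]
    simp only [tr_cp, ma_ma, mul_one, g]
  have h1 := hg.even ev hx hy
  have hx' := hx.cp P
  have hy' := hy.cp P
  have h2 := (abs_real_inner_le_norm _ _).trans (mul_le_mul (Cs2_sub hx') (hE ▸ h.est hy')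
    (norm_nonneg _) (by have := hx'.nonneg; positivity))
  have h3 := Cs2_even hx' (hy'.cp (kk K))
  have e2 : ⟪K (Cs X (Cs X (cp P x)) - cp P x), cp P y⟫ =
      ⟪Cs X (Cs X (cp P x)) - cp P x, K (cp P y) - cp (kk K) (cp P y)⟫ +
        ⟪Cs X (Cs X (cp P x)) - cp P x, cp (kk K) (cp P y)⟫ := by
    rw [h.sym, ← inner_add_right, sub_add_cancel]
  rw [h.split, inner_sub_left, e1, e2]
  have h4 : 0 ≤ E * (D * D') := mul_nonneg E0 (mul_nonneg hx.nonneg hy.nonneg)
  have := abs_le.1 h1; have := abs_le.1 h2; have := abs_le.1 h3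
  rw [abs_le]; constructor <;> linarith

/-- rank one -/
theorem TK.nk_one (h : TK K d C) {P : X →L[ℝ] X} (hP : ∀ a b, ⟪P a, b⟫ = ⟪a, P b⟫) {N : X}
    (hN : ∀ a, ∃ c : ℝ, P a = c • N) : ∃ M, 0 ≤ M ∧ NK K (kk K) P M :=
  h.nk hP fun r a b => by
    obtain ⟨c, hc⟩ := hN a
    obtain ⟨c', hc'⟩ := hN b
    simp only [hc, hc', map_smul, real_inner_smul_left, real_inner_smul_right, real_inner_comm N]

end Crest.Agent.X212.Cyf70
end
end

-- ▼ part X212/Cyf70/Nw

/-!
# Row 212, CYLF (helper70): weights; invertibility and index for non-local cylinder operators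
-/

set_option autoImplicit false
set_option linter.unusedSectionVars false
open Function Filter Topology Module Set MeasureTheory
open scoped RealInnerProductSpace BoundedContinuousFunction ContDiff

noncomputable section
namespace Crest.Agent.X212.Cyf70
open Neck67 (Sm Bd ex up dn cS)
open Dec35 Rf65
open Fred93 (Fr)

/-! ### conjugation by unbounded weights -/

/-- `1` on `[-n, n]`, `0` off `[-n - 1, n + 1]` -/
def cu (n : ℝ) : ℝ → ℝ := up (-n - 1) 1 * dn (n + 1) 1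

theorem sm_cu (n : ℝ) : Sm (cu n) := (Neck67.sm_up le_rfl _).mul (Neck67.sm_dn le_rfl _)

theorem cu_one {n t : ℝ} (h : |t| ≤ n) : cu n t = 1 := by
  have := abs_le.1 h
  simp [cu, Neck67.up_one (p := -n - 1) (t := t) one_pos (by linarith),
    Neck67.dn_one (q := n + 1) (t := t) one_pos (by linarith)]

theorem cu_zero {n t : ℝ} (h : n + 1 ≤ |t|) : cu n t = 0 := by
  rcases le_abs.1 h with h | h
  · simp [cu, Neck67.dn_zero one_pos h]
  · simp [cu, Neck67.up_zero (p := -n - 1) (t := t) one_pos (by linarith)]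

theorem abs_cu (n t : ℝ) : |cu n t| ≤ 1 := by
  have h1 := Neck67.up_mem (-n - 1) 1 t
  have h2 := Neck67.dn_mem (n + 1) 1 t
  exact (abs_of_nonneg (mul_nonneg h1.1 h2.1)).trans_le (mul_le_one₀ h1.2 h2.1 h2.2)

theorem hcs_cu (n : ℝ) : HasCompactSupport (cu n) :=
  HasCompactSupport.intro (isCompact_closedBall (0 : ℝ) (n + 1)) fun t ht =>
    cu_zero (le_of_lt (by simpa using ht))

theorem exists_trunc {ψ : ℝ → ℝ} (hψ : ContDiff ℝ ∞ ψ) {δ : ℝ} (bψ : Bd 0 (deriv ψ) δ) (n : ℝ) :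
    ∃ φ, Sm φ ∧ Bd 0 (deriv φ) δ ∧ ∀ t, |t| ≤ n → φ t = ψ t := by
  let f := cu n * deriv ψ
  have sf : ContDiff ℝ ∞ f := (sm_cu n).cd.mul (Neck67.cd_deriv hψ)
  have cf : HasCompactSupport f := (hcs_cu n).mul_right
  let φ : ℝ → ℝ := fun t => ψ 0 + ∫ s in (0 : ℝ)..t, f s
  have hd : ∀ t, HasDerivAt φ (f t) t := fun t =>
    (sf.continuous.integral_hasStrictDerivAt 0 t).hasDerivAt.const_add _
  have e : deriv φ = f := funext fun t => (hd t).deriv
  refine ⟨φ, Neck67.Sm.of_deriv_cpt (contDiff_infty_iff_deriv.2 ⟨fun t => (hd t).differentiableAt,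
    e ▸ sf⟩) (M := |ψ 0| + ∫ s, ‖f s‖) (fun t => (abs_add_le _ _).trans (add_le_add le_rfl ?_))
    (e ▸ cf), fun t => ?_, fun t ht => ?_⟩
  · exact intervalIntegral.norm_integral_le_integral_norm_uIoc.trans (setIntegral_le_integral
      (sf.continuous.integrable_of_hasCompactSupport cf).norm (ae_of_all _ fun _ => norm_nonneg _))
  · rw [e]
    change |cu n t * deriv ψ t| ≤ δ
    rw [abs_mul]
    exact (mul_le_mul (abs_cu n t) (bψ t) (abs_nonneg _) zero_le_one).trans_eq (one_mul _)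
  · have : ∫ s in (0 : ℝ)..t, f s = ∫ s in (0 : ℝ)..t, deriv ψ s :=
      intervalIntegral.integral_congr fun s hs => by
        have : |s| ≤ |t| := by simpa using abs_sub_left_of_mem_uIcc hs
        simp [f, cu_one (this.trans ht)]
    simp only [φ, this]
    rw [intervalIntegral.integral_deriv_eq_sub (fun s _ => Neck67.cd_diff hψ s)
      ((Neck67.cd_deriv hψ).continuous.intervalIntegrable _ _), add_sub_cancel]

section mu
variable {A : Type*} [NormedAddCommGroup A] [InnerProductSpace ℝ A] (M : Mu A)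
  {K K' K'' : A →L[ℝ] A} {ψ ψ' : ℝ → ℝ} {d C δ : ℝ}

theorem mu_ind {p : A → A → Prop} (hc : IsClosed {z : A × A | p z.1 z.2})
    (h : ∀ (n : ℝ) x y, p (M.m (cu n) x) (M.m (cu n) y)) (x y : A) : p x y := by
  refine Dense.induction (P := fun z : A × A => p z.1 z.2) (M.loc.prod M.loc) ?_ hc (x, y)
  rintro ⟨x, y⟩ ⟨⟨n, hn⟩, m, hm⟩
  have e : ∀ {z : A} {l : ℕ}, l ≤ n + m → (∀ b, Sm b → (∀ t : ℝ, |t| ≤ l → b t = 0) → M.m b z = 0) →
      M.m (cu (n + m : ℕ)) z = z := fun {z l} hl hz => by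
    have := hz _ (Neck67.Sm.one.sub (sm_cu (n + m : ℕ))) fun t ht => by
      rw [Pi.sub_apply, cu_one (ht.trans (by exact_mod_cast hl))]; simp
    rw [M.sub Neck67.Sm.one (sm_cu _), M.one] at this
    exact (sub_eq_zero.1 this).symm
  have := h (n + m : ℕ) x y
  rwa [e (by omega) hn, e (by omega) hm] at this

/-- `K' = e^ψ K e^(-ψ)` -/
def Cj (ψ : ℝ → ℝ) (K K' : A →L[ℝ] A) : Prop :=
  ∀ b c, Sm b → Sm c → HasCompactSupport b → HasCompactSupport c →
    M.m b * K' * M.m c = M.m (b * ex ψ) * K * M.m (ex (-ψ) * c)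

variable {M}

theorem cj_sm (hψ : Sm ψ) : Cj M ψ K (M.m (ex ψ) * K * M.m (ex (-ψ))) := fun b c hb hc _ _ => by
  rw [M.mul hb hψ.ex, M.mul hψ.neg.ex hc]; simp only [mul_assoc]

theorem Cj.inner (h : Cj M ψ K K') {φ : ℝ → ℝ} (hφ : Sm φ) {n : ℝ}
    (e : ∀ t, |t| ≤ n + 1 → φ t = ψ t) (x y : A) : ⟪K' (M.m (cu n) x), M.m (cu n) y⟫ =
      ⟪(M.m (ex φ) * K * M.m (ex (-φ))) (M.m (cu n) x), M.m (cu n) y⟫ := by
  have e1 : ∀ {a a' : ℝ → ℝ}, (∀ t, |t| ≤ n + 1 → a t = a' t) → cu n * ex a = cu n * ex a' :=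
    fun h => funext fun t => by
      rcases le_total |t| (n + 1) with ht | ht
      · simp [ex, h t ht]
      · simp [cu_zero ht]
  have h1 := h _ _ (sm_cu n) (sm_cu n) (hcs_cu n) (hcs_cu n)
  rw [← e1 e, mul_comm (ex (-ψ)), ← e1 (a := -φ) (a' := -ψ) (fun t ht => by simp [e t ht]),
    mul_comm _ (ex (-φ)), ← cj_sm hφ _ _ (sm_cu n) (sm_cu n) (hcs_cu n) (hcs_cu n)] at h1
  rw [← M.sym (sm_cu n), ← M.sym (sm_cu n)]
  exact congrArg (fun B : A →L[ℝ] A => ⟪B x, y⟫) h1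

theorem norm_le_of_inner {B : A →L[ℝ] A} {c : ℝ} (hc : 0 ≤ c) (h : ∀ x y, ⟪B x, y⟫ ≤ c * ‖x‖ * ‖y‖) :
    ‖B‖ ≤ c := B.opNorm_le_bound hc fun x => le_of_inner (h x)

theorem Cj.norm_le (h : Cj M ψ K K') (hK : M.KW K d C) (hψ : ContDiff ℝ ∞ ψ)
    (bψ : Bd 0 (deriv ψ) d) : ‖K'‖ ≤ C := by
  refine norm_le_of_inner (le_trans (norm_nonneg K) (hK.norm_le bψ.nonneg))
    (mu_ind M (isClosed_le (by fun_prop) (by fun_prop)) fun n x y => ?_)
  obtain ⟨φ, h1, h2, h3⟩ := exists_trunc hψ bψ (n + 1)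
  rw [h.inner h1 h3]
  exact (real_inner_le_norm _ _).trans (mul_le_mul_of_nonneg_right
    (ContinuousLinearMap.le_of_opNorm_le _ (hK φ h1 h2) _) (norm_nonneg _))

theorem Cj.kw (h : Cj M ψ K K') (hK : M.KW K d C) (hψ : ContDiff ℝ ∞ ψ)
    (bψ : Bd 0 (deriv ψ) (d / 2)) : M.KW K' (d / 2) C := fun φ hφ bφ => by
  refine Cj.norm_le (ψ := φ + ψ) (fun b c hb hc cb cc => ?_) hK (hφ.cd.add hψ) ?_
  · have := h _ _ (hb.mul hφ.ex) (hφ.neg.ex.mul hc) cb.mul_right cc.mul_left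
    rw [M.mul hb hφ.ex, M.mul hφ.neg.ex hc] at this
    rw [show b * ex (φ + ψ) = b * ex φ * ex ψ by ext t; simp [ex, Real.exp_add, mul_assoc],
      show ex (-(φ + ψ)) * c = ex (-ψ) * (ex (-φ) * c) by ext t; simp [ex, Real.exp_add, mul_assoc],
      ← this]
    simp only [mul_assoc]
  · rw [show deriv (φ + ψ) = deriv φ + deriv ψ from
      funext fun t => deriv_add (hφ.diff t) (Neck67.cd_diff hψ t)]
    exact fun t => (abs_add_le _ _).trans (by linarith [bφ t, bψ t])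

theorem Cj.norm_sub (h : Cj M ψ K K') (hK : M.KW K d C) (hd : 0 < d) (hψ : ContDiff ℝ ∞ ψ)
    (bψ : Bd 0 (deriv ψ) δ) (hδ : δ ≤ d / cS 0 / 4) : ‖K' - K‖ ≤ 2 * δ * cR d C := by
  refine norm_le_of_inner (by have := hK.cR_nonneg hd; have := bψ.nonneg; positivity)
    (mu_ind M (isClosed_le (by fun_prop) (by fun_prop)) fun n x y => ?_)
  obtain ⟨φ, h1, h2, h3⟩ := exists_trunc hψ bψ (n + 1)
  rw [sub_apply, inner_sub_left, h.inner h1 h3, ← inner_sub_left]
  exact (real_inner_le_norm _ _).trans (mul_le_mul_of_nonneg_right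
    (ContinuousLinearMap.le_of_opNorm_le _ (hK.norm_cj hd h1 h2 hδ) _) (norm_nonneg _))

theorem Cj.inner_sub (h : Cj M ψ K K') (hK : M.KW K d C) (hd : 0 < d)
    (Ks : ∀ u v, ⟪K u, v⟫ = ⟪u, K v⟫) (hψ : ContDiff ℝ ∞ ψ) (bψ : Bd 0 (deriv ψ) δ)
    (hδ : δ ≤ d / cS 0 / 4) (x : A) : |⟪(K' - K) x, x⟫| ≤ 2 * cR d C * δ ^ 2 * ‖x‖ ^ 2 := by
  refine mu_ind M (p := fun x _ => |⟪(K' - K) x, x⟫| ≤ 2 * cR d C * δ ^ 2 * ‖x‖ ^ 2)
    (isClosed_le (by fun_prop) (by fun_prop)) (fun n x _ => ?_) x x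
  obtain ⟨φ, h1, h2, h3⟩ := exists_trunc hψ bψ (n + 1)
  have := hK.inner_cj hd Ks h1 h2 hδ Neck67.Sm.one (ε := 0)
    (fun t => by rw [show (1 : ℝ → ℝ) = fun _ => 1 from rfl]; simp) (fun t => by simp)
    (M.m (cu n) x)
  rw [M.one] at this
  rw [sub_apply, inner_sub_left, h.inner h1 h3, ← inner_sub_left]
  exact this.trans_eq (by ring)

/-- the conjugates only depend on the weight over the supports -/
theorem Cj.eq_on (h : Cj M ψ K K') (h' : Cj M ψ' K K'') {b c : ℝ → ℝ} (hb : Sm b) (hc : Sm c)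
    (e : ∀ t, b t ≠ 0 ∨ c t ≠ 0 → ψ t = ψ' t) : M.m b * K' * M.m c = M.m b * K'' * M.m c := by
  refine ContinuousLinearMap.ext fun x => ext_inner_right ℝ fun y => ?_
  refine mu_ind M (p := fun x y => ⟪(M.m b * K' * M.m c) x, y⟫ = ⟪(M.m b * K'' * M.m c) x, y⟫)
    (isClosed_eq (by fun_prop) (by fun_prop)) (fun n x y => ?_) x y
  have h1 := h _ _ ((sm_cu n).mul hb) (hc.mul (sm_cu n)) (hcs_cu n).mul_right (hcs_cu n).mul_left
  rw [show cu n * b * ex ψ = cu n * b * ex ψ' from funext fun t => by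
      by_cases h0 : b t = 0
      · simp [h0]
      · simp [ex, e t (.inl h0)],
    show ex (-ψ) * (c * cu n) = ex (-ψ') * (c * cu n) from funext fun t => by
      by_cases h0 : c t = 0
      · simp [h0]
      · simp [ex, e t (.inr h0)],
    ← h' _ _ ((sm_cu n).mul hb) (hc.mul (sm_cu n)) (hcs_cu n).mul_right (hcs_cu n).mul_left,
    M.mul (sm_cu n) hb, M.mul hc (sm_cu n)] at h1
  rw [← M.sym (sm_cu n), ← M.sym (sm_cu n)]
  exact congrArg (fun B : A →L[ℝ] A => ⟪B x, y⟫) h1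

theorem exists_cj [CompleteSpace A] (hK : M.KW K d C) (hψ : ContDiff ℝ ∞ ψ)
    (bψ : Bd 0 (deriv ψ) d) : ∃ K', Cj M ψ K K' := by
  choose φ h1 h2 h3 using fun n : ℕ => exists_trunc hψ bψ n
  let B : ℕ → A →L[ℝ] A := fun n => M.m (ex (φ n)) * K * M.m (ex (-φ n))
  have hb : ∀ n x y, |⟪B n x, y⟫| ≤ C * ‖x‖ * ‖y‖ := fun n x y =>
    (abs_real_inner_le_norm _ _).trans (mul_le_mul_of_nonneg_right
      (ContinuousLinearMap.le_of_opNorm_le _ (hK _ (h1 n) (h2 n)) _) (norm_nonneg _))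
  have ex : ∀ x y, ∃ a, Tendsto (fun n => ⟪B n x, y⟫) (hyperfilter ℕ) (𝓝 a) := fun x y =>
    let ⟨a, _, ha⟩ := isCompact_Icc.ultrafilter_le_nhds
      ((hyperfilter ℕ).map fun n => ⟪B n x, y⟫) (le_principal_iff.2 (mem_map.2
        (univ_mem' fun n => abs_le.1 (hb n x y))))
    ⟨a, ha⟩
  choose β hβ using ex
  let β' : A →L[ℝ] A →L[ℝ] ℝ := LinearMap.mkContinuous₂ (LinearMap.mk₂ ℝ β
    (fun x x' y => tendsto_nhds_unique (hβ _ _) (by
      simpa only [map_add, inner_add_left] using (hβ x y).add (hβ x' y)))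
    (fun c x y => tendsto_nhds_unique (hβ _ _) (by
      simpa only [map_smul, real_inner_smul_left, smul_eq_mul] using (hβ x y).const_mul c))
    (fun x y y' => tendsto_nhds_unique (hβ _ _) (by
      simpa only [inner_add_right] using (hβ x y).add (hβ x y')))
    (fun c x y => tendsto_nhds_unique (hβ _ _) (by
      simpa only [real_inner_smul_right, smul_eq_mul] using (hβ x y).const_mul c))) C
    fun x y => le_of_tendsto' (hβ x y).norm fun n => hb n x y
  refine ⟨InnerProductSpace.continuousLinearMapOfBilin (𝕜 := ℝ) β', fun b c sb sc cb cc =>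
    ContinuousLinearMap.ext fun x => ext_inner_right ℝ fun y => ?_⟩
  obtain ⟨r, hr⟩ := (cb.isCompact.union cc.isCompact).isBounded.subset_closedBall 0
  have hz : ∀ {a : ℝ → ℝ} {t}, tsupport a ⊆ tsupport b ∪ tsupport c → r < |t| → a t = 0 :=
    fun h ht => image_eq_zero_of_notMem_tsupport fun h0 => ht.not_ge (by simpa using hr (h h0))
  rw [mul_apply_eq_comp, mul_apply_eq_comp, M.sym sb,
    InnerProductSpace.continuousLinearMapOfBilin_apply]
  refine tendsto_nhds_unique (hβ _ _) (tendsto_const_nhds.congr' ?_)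
  filter_upwards [Nat.hyperfilter_le_atTop (eventually_ge_atTop ⌈r⌉₊)] with n hn
  have hn' : r ≤ n := (Nat.le_ceil r).trans (by exact_mod_cast hn)
  rw [← M.sym sb]
  refine congrArg (fun B : A →L[ℝ] A => ⟪B x, y⟫) (Eq.trans ?_ (cj_sm (h1 n) b c sb sc cb cc).symm)
  rw [show b * Neck67.ex ψ = b * Neck67.ex (φ n) from funext fun t => by
      rcases le_or_gt |t| r with ht | ht
      · simp [Neck67.ex, h3 n t (ht.trans hn')]
      · simp [hz subset_union_left ht],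
    show Neck67.ex (-ψ) * c = Neck67.ex (-φ n) * c from funext fun t => by
      rcases le_or_gt |t| r with ht | ht
      · simp [Neck67.ex, h3 n t (ht.trans hn')]
      · simp [hz subset_union_right ht]]

end mu

end Crest.Agent.X212.Cyf70
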