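import Crest.Agent.X212.Cyf70.Kr
import Crest.Agent.X212.Cyf70.Nz
import Crest.Agent.X212.Cyf70.Nw

/-!
# Row 212, CYLF (helper70): the peaked estimate at a nondegenerate critical point
-/

set_option autoImplicit false
set_option linter.unusedSectionVars false
set_option linter.unusedSimpArgs false
noncomputable section
open scoped Manifold ContDiff Topology InnerProductSpace
open MeasureTheory Set Function Filter Real

namespace Crest.Agent.X212.Cyf70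
open An An.Pre Map77 Sob92 Nd18 Dec35 Rf65
open Neck67 (cS ex)
open Crt72 (IsPj)

section abs
variable {X₁ X₀ Z : Type*} [NormedAddCommGroup X₁] [NormedSpace ℝ X₁] [CompleteSpace X₁]
  [NormedAddCommGroup X₀] [InnerProductSpace ℝ X₀] [CompleteSpace X₀] [NormedAddCommGroup Z]
  [NormedSpace ℝ Z] [CompleteSpace Z]
  {i L : X₁ →L[ℝ] X₀} {J : Z →L[ℝ] Lam X₁} {T : Z →L[ℝ] Lam X₀}
  {K : Lam X₀ →L[ℝ] Lam X₀} {k P : X₀ →L[ℝ] X₀} {M c d C : ℝ}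

theorem cy_mono {A B : Type*} [NormedAddCommGroup A] [InnerProductSpace ℝ A] [NormedAddCommGroup B]
    [NormedSpace ℝ B] {M : Mu A} {mB : (ℝ → ℝ) → B → B} {i T S : B →L[ℝ] A} {P : A →L[ℝ] A}
    {C C' : ℝ} (h : Dec35.Cy M mB i T S P C) (hC : C ≤ C') : Dec35.Cy M mB i T S P C' :=
  ⟨h.op, h.one.trans hC, h.im, h.Tm, h.Pm, fun u => (h.low u).trans (by gcongr),
    fun u w => (h.quad u w).trans (by gcongr)⟩

theorem CylD.pk_nk (h : CylD 1 i L J T) (hK : NK K k P M) (hM : 0 ≤ M) (hG : Gap i L k P c)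
    (kw : (muL X₀).KW K d C) (hd : 0 < d) : ∃ ε > 0, ∀ G ≥ 0, ∃ δ₀ > 0, ∀ δ, 0 < δ → δ ≤ δ₀ →
      ∀ ψ ς κ, Pf δ ε ψ ς κ → ∀ u, ∀ ρ ≥ 0,
      ‖mt _ (bc κ) (cp P (mt _ (bc (ex ψ)) (cp i (J u))))‖ ≤ ρ + G * ‖T (mZ J (ex ψ) u)‖ →
      δ * ‖mt _ (bc (ex ψ)) (cp i (J u))‖ ≤
        3 * (‖mt _ (bc (ex ψ)) (T u + cp L (J u) + K (cp i (J u)))‖ + ρ) := by
  have c0 := kw.cR_nonneg hd
  have c1 := CylD.one_le_cY hM hG
  have cs := Neck67.one_le_cS 0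
  have y := cy_mono (CylD.nk_cy hK hM hG h) (le_add_of_nonneg_right (show 0 ≤ 2 * cR d C by positivity))
  generalize cY c M P = a at c1 y
  refine ⟨(16 * cR d C + 1)⁻¹, by positivity, fun G hG => ⟨min (16 * cR d C + 1)⁻¹ (min (d / cS 0 / 4)
    (416 * (a + 2 * cR d C) ^ 4 * (G + 2 * (a + 2 * cR d C)) ^ 2)⁻¹), by positivity,
    fun δ h0 h1 ψ ς κ p u ρ hρ row => ?_⟩⟩
  simp only [le_min_iff] at h1
  have e : (16 * cR d C + 1)⁻¹ * (16 * cR d C + 1) = 1 := inv_mul_cancel₀ (by positivity)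
  rw [add_assoc]
  refine y.pk_wt kw hd hK.sym (fun b hb u => ?_) h0 hG hρ p.sψ p.sς p.sk p.e p.s1 p.s2
    (inv_le_one_of_one_le₀ (by linarith)) p.k1 p.k2 h1.2.1 (by linarith) ?_
    ((le_mul_inv_iff₀ (by positivity)).1 (h1.2.2.trans_eq (one_mul _).symm)) u row
  · simp only [_root_.add_apply, ContinuousLinearMap.comp_apply, add_sub_cancel_right, J_mZ h hb,
      cp_mt, muL_m]
  · nlinarith [mul_le_mul_of_nonneg_right h1.1 c0, inv_nonneg.2 (show 0 ≤ 16 * cR d C + 1 by positivity)]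

theorem pj_le {S : Submodule ℝ X₁} (h : IsPj i S P) {n : X₀} (hn : ∀ a, ∃ c : ℝ, P a = c • n)
    (a : X₀) : ‖P a‖ ≤ ‖n‖ * ‖(⟪n, n⟫_ℝ)⁻¹ * ⟪n, a⟫_ℝ‖ := by
  obtain ⟨c, hc⟩ := hn a
  obtain ⟨w, hw, e⟩ := h.mem a
  have h1 := h.symm a (P a)
  rw [e, h.fix w hw, ← e, hc, real_inner_smul_left, real_inner_smul_right, real_inner_smul_right] at h1
  rw [hc, norm_smul, mul_comm]
  rcases eq_or_ne n 0 with rfl | h0
  · simp
  rcases eq_or_ne c 0 with rfl | h2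
  · rw [norm_zero, mul_zero]; positivity
  rw [real_inner_comm a n, ← mul_left_cancel₀ h2 h1, mul_comm c,
    inv_mul_cancel_left₀ (inner_self_ne_zero.2 h0)]

theorem row_le {f : Lam X₀} {g : ℝ → X₀} (r : R f g) {n : X₀}
    (h : ∀ a, ‖P a‖ ≤ ‖n‖ * ‖(⟪n, n⟫_ℝ)⁻¹ * ⟪n, a⟫_ℝ‖) {κ e : ℝ → ℝ} (hκ : Neck67.Sm κ)
    (he : Neck67.Sm e) : ‖mt _ (bc κ) (cp P (mt _ (bc e) f))‖ ≤
      ‖n‖ * √(∫ t, (κ t * e t * ((⟪n, n⟫_ℝ)⁻¹ * ⟪n, g t⟫_ℝ)) ^ 2) := by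
  have r1 := ((r.ma (bc e) (.id ℝ _)).cp P).ma (bc κ) (.id ℝ _)
  have r2 := ((r.ma (bc e) (.id ℝ _)).cp ((⟪n, n⟫_ℝ)⁻¹ • innerSL ℝ n)).ma (bc κ) (.id ℝ _)
  refine (r1.norm_le r2 (c := ‖n‖) (ae_of_all _ fun t => ?_)).trans_eq (congrArg _ ?_)
  · simp only [ContinuousLinearMap.id_apply, norm_smul (bc κ t)]
    rw [mul_left_comm]
    exact mul_le_mul_of_nonneg_left (h _) (norm_nonneg _)
  · rw [norm_eq_sqrt_real_inner, r2.inner r2]
    refine congrArg _ (integral_congr_ae (ae_of_all _ fun t => ?_))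
    simp only [ContinuousLinearMap.id_apply, _root_.smul_apply, innerSL_apply_apply,
      real_inner_smul_right, bc_apply hκ, bc_apply he, smul_eq_mul, real_inner_self_eq_norm_sq,
      Real.norm_eq_abs, sq_abs]
    ring

end abs

section gen
variable {E : Type} [NormedAddCommGroup E] [NormedSpace ℝ E] [FiniteDimensional ℝ E]
  [MeasurableSpace E] [BorelSpace E]
  {HM : Type} [TopologicalSpace HM] {I : ModelWithCorners ℝ E HM} [I.Boundaryless]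
  {M : Type} [TopologicalSpace M] [ChartedSpace HM M] [IsManifold I ∞ M] [MeasurableSpace M]
  [T2Space M] [BorelSpace M] [SecondCountableTopology M] {ι : Type} [Fintype ι]
  {V W : Type} [NormedAddCommGroup V] [InnerProductSpace ℝ V] [FiniteDimensional ℝ V]
  [NormedAddCommGroup W] [InnerProductSpace ℝ W] [FiniteDimensional ℝ W] {F : Fr I M ι}

theorem nrm0_ii {C : ℕ → ℝ} (hF : F.Tame C) {a : M → V} {b : M → W} (ha : Fl F.toPre a)
    (hb : Fl F.toPre b) : F.nrm 0 (fun x => i1 V W (a x) + i2 V W (b x)) ≤ F.nrm 0 a + F.nrm 0 b := by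
  refine (Hm83.nrm_add hF (ha.clm (i1 V W)) (hb.clm (i2 V W)) 0).trans (add_le_add ?_ ?_)
  · refine (nrm0_le zero_le_one (ha.fl 0) fun x => ?_).trans_eq (one_mul _)
    rw [one_mul, norm_eq_sqrt_real_inner, inner2, norm_eq_sqrt_real_inner]; simp
  · refine (nrm0_le zero_le_one (hb.fl 0) fun x => ?_).trans_eq (one_mul _)
    rw [one_mul, norm_eq_sqrt_real_inner, inner2, norm_eq_sqrt_real_inner]; simp

omit [FiniteDimensional ℝ V] in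
theorem is_norm0 [CompleteSpace V] {F : Pre I M ι} {p : M → V →L[ℝ] V} {h : F.H 0 p} {u : M → V}
    (H : Is F 0 p h u) : ‖h‖ = F.nrm 0 u := by rw [← H.norm_zero, incl_self]

theorem norm_sc2' {a b : ℝ} (ha : |a| ≤ 1) (hb : |b| ≤ 1) (v : P2 V W) : ‖sc2 V W a b v‖ ≤ 1 * ‖v‖ := by
  refine (pow_le_pow_iff_left₀ (norm_nonneg _) (by positivity) two_ne_zero).1 ?_
  rw [one_mul, ← real_inner_self_eq_norm_sq, ← real_inner_self_eq_norm_sq, inner2, inner2]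
  simp only [f2_sc2, s2_sc2, real_inner_smul_left, real_inner_smul_right, ← mul_assoc]
  exact add_le_add
    (mul_le_of_le_one_left real_inner_self_nonneg (abs_le_one_iff_mul_self_le_one.1 ha))
    (mul_le_of_le_one_left real_inner_self_nonneg (abs_le_one_iff_mul_self_le_one.1 hb))

theorem nrm0_half {g : M → P2 V W} (hg : Fl F.toPre g) :
    F.nrm 0 g ≤ 2 * F.nrm 0 fun x => sc2 V W (1 / 2) 1 (g x) :=
  nrm0_le zero_le_two ((hg.clm _).fl 0) fun x => le_trans (by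
    rw [sc2_sc2, show (2 : ℝ) * (1 / 2) = 1 by norm_num, mul_one, sc2_one]) (norm_sc2 _)

theorem nrm0_sz {C : ℕ → ℝ} (hF : F.Tame C) {X : Type} [NormedAddCommGroup X]
    [InnerProductSpace ℝ X] [FiniteDimensional ℝ X] {f : M → ℝ} (hf : F.Cb f) {a : M → X}
    {b : M → P2 V W} (ha : Fl F.toPre a) (hb : Fl F.toPre b) :
    F.nrm 0 (fun x => f x • (i1 _ _ ((1 / 2 : ℝ) • a x) + i2 _ _ (sc2 V W 1 (1 / 2) (b x)))) ≤
      F.nrm 0 (fun x => f x • b x) + F.nrm 0 fun x => f x • a x := by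
  simp only [smul_add, ← map_smul, smul_comm (f _) (1 / 2 : ℝ)]
  rw [add_comm (F.nrm 0 _)]
  refine (nrm0_ii hF ((ha.smul hf).csmul _) ((hb.smul hf).clm _)).trans (add_le_add
    ((nrm0_le zero_le_one ((ha.smul hf).fl 0) fun x => ?_).trans_eq (one_mul _))
    ((nrm0_le zero_le_one ((hb.smul hf).fl 0) fun x =>
      norm_sc2' (by simp) (by norm_num [abs_of_pos]) _).trans_eq (one_mul _)))
  change ‖(1 / 2 : ℝ) • f x • a x‖ ≤ _
  rw [norm_smul (1 / 2 : ℝ)]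
  exact mul_le_mul_of_nonneg_right (by norm_num) (norm_nonneg _)

theorem inner_four (a b : P2 V W) :
    ⟪sc2 V W 1 2 a, sc2 V W 1 2 b⟫_ℝ = 4 * ⟪sc2 V W (1 / 4) 1 a, b⟫_ℝ := by
  simp only [inner2, f2_sc2, s2_sc2, real_inner_smul_left, real_inner_smul_right]; ring

theorem inner_half (a b : P2 V W) :
    ⟪sc2 V W (1 / 2) 1 a, sc2 V W (1 / 2) 1 b⟫_ℝ = ⟪sc2 V W (1 / 4) 1 a, b⟫_ℝ := by
  simp only [inner2, f2_sc2, s2_sc2, real_inner_smul_left, real_inner_smul_right]; ring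

theorem inner_tm {a b b' : P2 (Fm (Option ι) V) W} (ha : f2 _ _ a none = 0)
    (h1 : ∀ s, f2 _ _ b (some s) = f2 _ _ b' (some s)) (h2 : s2 _ _ b = s2 _ _ b') :
    ⟪a, b⟫_ℝ = ⟪a, b'⟫_ℝ := by
  simp only [inner2, inner_fm, Fintype.sum_option, ha, h1, h2, inner_zero_left]

theorem ip_add {p : M → V →L[ℝ] V} (s t u : Sec I p) :
    F.ip 0 s.1 (t + u).1 = F.ip 0 s.1 t.1 + F.ip 0 s.1 u.1 := by
  simp only [← inner_toH, map_add, inner_add_right]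

theorem fix_of {lam : Type} [Fintype lam] {r : ℕ} {c : Cfg M ι lam r} {ζ : M → c.m.A} {x : M}
    (h : dg F c 1 ζ x = jC c x) : (∀ a, Wz78.nab I F.e (c.m.adW c.W) a ζ x = 0) ∧
      opL (ζ x) (c.Φ x) = c.m.J (c.Φ x) :=
  ⟨fun a => neg_eq_zero.1 ((fa_dg ζ x a).symm.trans (by rw [h, fa_jC]; rfl)),
    (one_smul ℝ _).symm.trans ((fp_dg ζ x).symm.trans (by rw [h, fp_jC]))⟩

variable [CompactSpace M] {A : Op M (Option ι) V W} {p : M → V →L[ℝ] V}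

theorem norm_DtH {x : (cylP F.toPre).H 1 (pc p)} {w : M × ℝ → V} (H : Is (cylP F.toPre) 1 _ x w)
    (hw : Sm (IC I) w) :
    ‖DtH F.toPre 0 p x‖ = (cylP F.toPre).nrm 0 ((cylP F.toPre).D none w) := by
  have := FiniteDimensional.complete ℝ V
  have e : ∀ x, ‖DtH F.toPre 0 p x‖ = ‖DH (cylP F.toPre) 0 (pc p) none x‖ := fun x => by
    induction x using H_ind with
    | hP => exact isClosed_eq (by fun_prop) (by fun_prop)
    | h s =>
      rw [DtH_toH, norm_toH]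
      exact ((Is.DH (F := cyl F) (Is.toH s) s.2.1 none).norm ((cylP F.toPre).sm_D s.2.1 none)).symm
  rw [e]
  exact (Is.DH (F := cyl F) H hw none).norm ((cylP F.toPre).sm_D hw none)

variable {K : (cylP F.toPre).H 0 (pc A.p) →L[ℝ] (cylP F.toPre).H 0 (pc A.p)}

/-- the projector on a kernel spanned by one section -/
theorem CyO.exists_P (o : CyO F A) {d C : ℝ} (hT : TK (KZ K) d C) (n : Sec I A.p)
    (hn : ∀ v, Crt72.Op (F.incl 1 0 A.p) (LH F A 0) (kk (KZ K)) v = 0 → ∃ c : ℝ, v = c • F.toH 1 _ n) :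
    ∃ P c M, IsPj (F.incl 1 0 A.p) (Crt72.Op (F.incl 1 0 A.p) (LH F A 0) (kk (KZ K))).ker P ∧
      (∀ a, ∃ c : ℝ, P a = c • F.toH 0 _ n) ∧ Gap (F.incl 1 0 A.p) (LH F A 0) (kk (KZ K)) P c ∧
      0 ≤ M ∧ NK (KZ K) (kk (KZ K)) P M := by
  have := FiniteDimensional.complete ℝ V
  obtain ⟨σ, σ', hσ⟩ := exists_stp
  have : FiniteDimensional ℝ (Crt72.Op (F.incl 1 0 A.p) (LH F A 0) (kk (KZ K))).ker :=
    Submodule.finiteDimensional_of_le (S₂ := ℝ ∙ F.toH 1 _ n) fun v hv =>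
      let ⟨c, hc⟩ := hn v hv; Submodule.mem_span_singleton.2 ⟨c, hc.symm⟩
  obtain ⟨P, hP⟩ := Crt72.exists_isPj (F.incl 1 0 A.p)
    (Crt72.Op (F.incl 1 0 A.p) (LH F A 0) (kk (KZ K))).ker
  have hN : ∀ a, ∃ c : ℝ, P a = c • F.toH 0 _ n := fun a => by
    obtain ⟨v, hv, e⟩ := hP.mem a
    obtain ⟨c, rfl⟩ := hn v hv
    exact ⟨c, by rw [e, map_smul, incl_toH zero_le_one]⟩
  obtain ⟨c, hc⟩ := exists_gap (o.isSF hσ) hT.kk_symm hP
  obtain ⟨M, hM⟩ := hT.nk_one hP.symm hN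
  exact ⟨P, c, M, hP, hN, hc, hM⟩

/-- **the peaked estimate** -/
theorem CyO.pk (o : CyO F A) {d C : ℝ} (hT : TK (KZ K) d C) (n : Sec I A.p)
    (hn : ∀ v, Crt72.Op (F.incl 1 0 A.p) (LH F A 0) (kk (KZ K)) v = 0 → ∃ c : ℝ, v = c • F.toH 1 _ n) :
    ∃ c ≥ 0, ∃ ε > 0, ∀ G ≥ 0, ∃ δ₀ > 0, ∀ δ, 0 < δ → δ ≤ δ₀ → ∀ ψ ς κ, Pf δ ε ψ ς κ →
      ∀ w z : M × ℝ → V, Fl (cyl F).toPre w → (∀ x, A.p x.1 (w x) = w x) → Fl (cyl F).toPre z →
      (∀ x, A.p x.1 (z x) = z x) →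
      (∀ x, Is (cylP F.toPre) 0 _ x w → Is (cylP F.toPre) 0 _ (K x) z) → ∀ ρ ≥ 0,
      √(∫ t, (κ t * exp (ψ t) * ((F.ip 0 n.1 n.1)⁻¹ * ∫ y, ⟪n.1 y, w (y, t)⟫_ℝ ∂F.μ)) ^ 2) ≤
        ρ + G * (cylP F.toPre).nrm 0 ((cylP F.toPre).D none fun x => exp (ψ x.2) • w x) →
      δ * (cylP F.toPre).nrm 0 (fun x => exp (ψ x.2) • w x) ≤ c * ((cylP F.toPre).nrm 0 (fun x =>
        exp (ψ x.2) • ((cyo A).app (cyl F) w x + A.σ none x.1 (z x))) + ρ) := by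
  have := FiniteDimensional.complete ℝ V
  have := FiniteDimensional.complete ℝ W
  obtain ⟨P, c, m, hP, hN, hG, hm, hK⟩ := o.exists_P hT n hn
  obtain ⟨ε, hε, H⟩ := o.cylD.pk_nk hK hm hG hT.kw hT.pos
  obtain ⟨n0, e0⟩ : ∃ n0, n0 = F.toH 0 _ n := ⟨_, rfl⟩
  have := norm_nonneg n0
  refine ⟨3 * (1 + ‖n0‖), by positivity, ε, hε, fun G hG => ?_⟩
  obtain ⟨δ₀, h0, H⟩ := H (‖n0‖ * G) (by positivity)
  refine ⟨δ₀, h0, fun δ h1 h2 ψ ς κ pf w z hw pw hz pz hK ρ hρ row => ?_⟩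
  obtain ⟨_, g⟩ := o.good
  obtain ⟨x, hx⟩ : ∃ x, Is (cylP F.toPre) 1 (pc A.p) x w :=
    exists_Is o.tameZ.choose_spec.exh hw.sm (hw.fl 1) pw
  have cb := cb_snd' (F := F) pf.sψ.ex
  have hx0 := hx.incl zero_le_one
  have k := H δ h1 h2 ψ ς κ pf x (‖n0‖ * ρ) (by positivity) (by
    rw [← Ψ_incl zero_le_one, mZ_eq o.cylD pf.sψ.ex (m_Ψ pf.sψ.ex x).symm,
      ContinuousLinearMap.comp_apply, norm_Ψ, norm_DtH (hx.smulH cb) (hw.smul cb).sm, mul_assoc,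
      ← mul_add]
    refine (row_le (R_Ψ' hx0 hw.sm pw) (pj_le hP (e0 ▸ hN)) pf.sk pf.sψ.ex).trans
      (mul_le_mul_of_nonneg_left ?_ this)
    simp only [e0, inner_toH]
    exact row)
  have a1 : Is (cylP F.toPre) 0 _ (AH F A 0 x) ((cyo A).app (cyl F) w) :=
    Is.opH (F := cyl F) (fun a => ⟨_, g.σ a⟩) ⟨_, g.B⟩ g.qσ (Maps.of_left g.qB) hx hw.sm
  have a2 := ((a1.mulH o.cb_nu (Maps.of_left fun x => o.p_nu x.1)).add (hK _ hx0)).smulH cb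
  have f1 : Fl (cyl F).toPre ((cyo A).app (cyl F) w) := Fl.opA (F := cyl F) g hw
  rw [← Ψ_incl zero_le_one, KZ_Ψ, ContinuousLinearMap.comp_apply, ← o.Ψ_AH, ← map_add,
    m_Ψ pf.sψ.ex, m_Ψ pf.sψ.ex, norm_Ψ, norm_Ψ, is_norm0 (hx0.smulH cb), NH, is_norm0 a2] at k
  have k2 := nrm0_le (F := cyl F) (u := fun x => ex ψ x.2 • (nu A x.1 ((cyo A).app (cyl F) w x) + z x))
    zero_le_one (((f1.add (hz.app (o.cb_σ none))).smul cb).fl 0) fun x => by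
      rw [one_mul, norm_smul, norm_smul, norm_eq_sqrt_real_inner (_ + _),
        o.inner_σ (y := x.1) (by rw [map_add, o.p_nu, pz]), map_add, o.σ_nu,
        ← norm_eq_sqrt_real_inner]
      exact (congrArg (fun v => ‖ex ψ x.2‖ * ‖v + _‖) (Ell97.q_app g w x)).le
  rw [one_mul] at k2
  refine (k.trans (mul_le_mul_of_nonneg_left (add_le_add_left k2 _) zero_le_three)).trans ?_
  have k3 := nrm_nonneg (F := cylP F.toPre) 0 fun x =>
    exp (ψ x.2) • ((cyo A).app (cyl F) w x + A.σ none x.1 (z x))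
  change 3 * ((cylP F.toPre).nrm 0 (fun x =>
    exp (ψ x.2) • ((cyo A).app (cyl F) w x + A.σ none x.1 (z x))) + _) ≤ _
  nlinarith [mul_nonneg this k3]

end gen

variable {E3 : Type} [NormedAddCommGroup E3] [NormedSpace ℝ E3] [FiniteDimensional ℝ E3]
  [MeasurableSpace E3] [BorelSpace E3]
  {H3 : Type} [TopologicalSpace H3] {I3 : ModelWithCorners ℝ E3 H3} [I3.Boundaryless]
  {Y : Type} [TopologicalSpace Y] [ChartedSpace H3 Y] [IsManifold I3 ∞ Y] [T2Space Y]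
  [MeasurableSpace Y] [BorelSpace Y] [SecondCountableTopology Y] [CompactSpace Y]
  {κ : Type} [Fintype κ] {lam : Type} [Fintype lam]
  {N : ND Y lam} {D : YD I3 Y κ lam} {β : YC Y κ lam} {ξ η : Y → (cy β).m.A} {u : Cz β}

section hz
variable (h : Hz N D β) (hη : Gs I3 β η)

/-- the generator of the kernel -/
abbrev n0 : SY D β := scY h (1 / 2) 1 (jS h + gS h 1 hη)

/-- its squared norm -/
def μ0 : ℝ := D.F.ip 0 (n0 h hη).1 (n0 h hη).1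

/-- the phase row -/
def nR (y : Y) : Cv (cy β) := (μ0 h hη)⁻¹ • sc2 _ _ (1 / 4) 1 (jY β y + gY D β 1 η y)

include h hη in
theorem u0_tm (y : Y) : fa (sc2 _ _ (1 / 4) 1 (jY β y + gY D β 1 η y)) none = 0 := by
  rw [f2_sc2, map_add, jY, fa_jC, zero_add, PiLp.smul_apply, gY, fa_dg_none h.adm hη.sm, smul_zero]

theorem row_nR (u : Cz β) (t : ℝ) : row D (nR h hη) u t =
    (μ0 h hη)⁻¹ * ∫ y, ⟪sc2 _ _ (1 / 4) 1 (jY β y + gY D β 1 η y), u (y, t)⟫_ℝ ∂D.F.μ := by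
  simp only [row, nR, real_inner_smul_left, integral_const_mul]

theorem fix_n0 (H : μ0 h hη = 0) : Fix D.Z (cy β) univ := by
  have z : Gs I3 β 0 := ⟨contMDiff_const, fun _ => zero_mem _⟩
  have g := z.lin hη (-1)
  have e : ∀ x : Y × ℝ, dg D.Z (cy β) 1 (fun x => (0 + (-1 : ℝ) • η) x.1) x = jC (cy β) x :=
    fun x => by
    have k : sc2 _ _ (1 / 2) 1 (jY β x.1 + gY D β 1 η x.1) = 0 :=
      congrFun (congrArg Subtype.val (sec_zero (F := D.F) (s := n0 h hη) H)) x.1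
    have k' := congrArg (sc2 _ _ 2 1) k
    rw [sc2_sc2, show (2 : ℝ) * (1 / 2) = 1 by norm_num, mul_one, sc2_one, map_zero] at k'
    rw [dg_fst h.adm g.sm]
    beta_reduce
    rw [gY_lin h z hη, show gY D β 1 0 x.1 = 0 from dg_zero _, zero_add, neg_one_smul, neg_eq_of_add_eq_zero_left k']
    rfl
  exact ⟨_, ⟨(sm_fst g.sm).contMDiffOn, fun x _ => g.mem x, fun a x _ => (fix_of (e x)).1 a⟩,
    fun x _ => (fix_of (e x)).2⟩

variable (hl : LapStmt I3 Y κ lam)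
  (h0 : sig D.B D.Z (cy β) 2 (fun x => jY β x.1 + gY D β 1 η x.1) = 0)
include h hη hl h0

theorem orth (hξ : Gs I3 β ξ) :
    ∫ y, ⟪sc2 _ _ (1 / 4) 1 (jY β y + gY D β 1 η y), gY D β 1 ξ y⟫_ℝ ∂D.F.μ = 0 := by
  have k : ∫ y, ⟪sig D.B D.Z (cy β) 2 (fun x => jY β x.1 + gY D β 1 η x.1) (y, 0), ξ y⟫_ℝ ∂D.F.μ =
      ∫ y, ⟪sc2 _ _ 1 2 (jY β y + gY D β 1 η y), gY D β 2 ξ y⟫_ℝ ∂D.F.μ :=
    ibp h hl (jS h + gS h 1 hη) hξ
  simp only [h0, Pi.zero_apply, inner_zero_left, integral_zero, ← sc2_gY (l := 2), inner_four,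
    integral_const_mul] at k
  linarith

theorem rw_nR : Rw D β (nR h hη) ((μ0 h hη)⁻¹ * μ0 h hη) := by
  have g : ∀ ζ : Y × ℝ → (cy β).m.A, Sm (IC I3) ζ → (∀ x, ζ x ∈ (cy β).m.gS x) → ∀ t,
      row D (nR h hη) (dg D.Z (cy β) 1 ζ) t = 0 := fun ζ h1 h2 t => by
    have k : Gs I3 β fun y => ζ (y, t) := ⟨sm_slice_fst h1 t, fun x => h2 (x.1, t)⟩
    have e : ∀ y, ⟪sc2 _ _ (1 / 4) 1 (jY β y + gY D β 1 η y), dg D.Z (cy β) 1 ζ (y, t)⟫_ℝ =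
        ⟪sc2 _ _ (1 / 4) 1 (jY β y + gY D β 1 η y), gY D β 1 (fun y => ζ (y, t)) y⟫_ℝ := fun y => by
      refine inner_tm (u0_tm h hη y) (fun s => ?_) ?_
      · rw [gY, fa_dg_some h1, fa_dg_some (sm_fst k.sm) (y, 0) s]
      · rw [gY, fp_dg, fp_dg]; rfl
    rw [row_nR]
    simp only [e]
    rw [orth h hη hl h0 k, mul_zero]
  have J : ∫ y, ⟪fp (nR h hη y), (cy β).m.J ((cy β).Φ (y, 0))⟫_ℝ ∂D.F.μ =
      (μ0 h hη)⁻¹ * μ0 h hη := by
    have k1 := ip_add (F := D.F) (scY h (1 / 4) 1 (jS h + gS h 1 hη)) (jS h) (gS h 1 hη)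
    have k2 : D.F.ip 0 (scY h (1 / 4) 1 (jS h + gS h 1 hη)).1 (gS h 1 hη).1 = 0 := orth h hη hl h0 hη
    have k3 : μ0 h hη = D.F.ip 0 (scY h (1 / 4) 1 (jS h + gS h 1 hη)).1 (jS h + gS h 1 hη).1 :=
      integral_congr_ae (ae_of_all _ fun y => inner_half _ _)
    rw [k2, add_zero, ← k3] at k1
    refine Eq.trans (integral_congr_ae (ae_of_all _ fun y => ?_))
      ((row_nR h hη (jC (cy β)) 0).trans (congrArg _ k1.symm))
    beta_reduce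
    rw [inner2, fa_jC, fp_jC, inner_zero_right, zero_add]
  refine ⟨((μ0 h hη)⁻¹ • scY h (1 / 4) 1 (jS h + gS h 1 hη)).2.1, g, fun y => ?_, J, ?_⟩
  · rw [nR, map_smul, PiLp.smul_apply, u0_tm h hη, smul_zero]
  · rcases eq_or_ne (μ0 h hη) 0 with e | e
    · exact .inr ⟨by rw [e, mul_zero], funext fun y => by rw [nR, e, inv_zero, zero_smul]; rfl⟩
    · exact .inl (inv_mul_cancel₀ e)

end hz

theorem sc2_half (u : Cz β) : (fun x => sc2 _ _ 2 1 (sc2 _ _ (1 / 2) 1 (u x))) = u := funext fun x => by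
  rw [sc2_sc2, show (2 : ℝ) * (1 / 2) = 1 by norm_num, mul_one, sc2_one]

namespace Kp
variable (h : Kp N D β)
include h

theorem app_AZ (hu : Vr D β u) (x : Y × ℝ) :
    (cyo (AZ D β)).app (cyl D.F) (fun x => sc2 _ _ (1 / 2) 1 (u x)) x +
      (AZ D β).σ none x.1 (hs N D β (fun x => sc2 _ _ (1 / 2) 1 (u x)) x) =
    i1 _ _ ((1 / 2 : ℝ) • (sig D.B D.Z (cy β) 2 u + KT N D β u) x) +
      i2 _ _ (sc2 _ _ 1 (1 / 2) ((lin D.B D.Z (cy β) u - KE N D β u) x)) := by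
  have v := vr_sc2 (1 / 2) 1 hu
  have k := sz_id h.ok h.adm v.fl.sm v.tg ((h.vr_hz hu).tg x)
  rw [sc2_half, ← cyo_AZ h.toHz] at k
  rw [hs, sc2_half]
  exact k

theorem fl_K (hu : Vr D β u) : Fl D.Z.toPre (KE N D β u) ∧ Fl D.Z.toPre (KT N D β u) :=
  ⟨(h.vr_hz hu).fl.app (cb_kE h.toHz), (h.vr_hz hu).fl.clm _⟩

theorem tw_q1 : Tw D β (te (N.q1 (n := 0) D.nk) (cy β)) ∧
    ∀ u, Vr D β u → d0 (te (N.q1 (n := 0) D.nk) (cy β)) u = KE N D β u := by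
  rw [show te (N.q1 (n := 0) D.nk) (cy β) = fun u x => kE D β x (gz N D β u x) from
    funext₂ (te_q1 h.toHz)]
  exact h.tw.app (cb_kE h.toHz)

variable (hd : Module.finrank ℝ E3 ≤ 3) (hl : LapStmt I3 Y κ lam) (hc : N.Crit D β) (irr : Irr D β)
  (hn : N.Nondeg D β)
include hd hl hc irr hn

theorem pk (hη : Gs I3 β η) (h0 : sig D.B D.Z (cy β) 2 (fun x => jY β x.1 + gY D β 1 η x.1) = 0) :
    ∃ C ≥ 0, ∃ ε > 0, ∀ G ≥ 0, ∃ δ₀ > 0, ∀ δ, 0 < δ → δ ≤ δ₀ → ∀ ψ ς k, Pf δ ε ψ ς k →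
    ∀ u, Vr D β u → ∀ ρ ≥ 0,
      √(∫ t, (k t * exp (ψ t) * row D (nR h.toHz hη) u t) ^ 2) ≤
        ρ + G * D.Z.nrm 0 (D.Z.D none fun x => exp (ψ x.2) • u x) →
      δ * nw D.Z.toPre 0 (fun x => ψ x.2) u ≤
        C * (nw D.Z.toPre 0 (fun x => ψ x.2) (lin D.B D.Z (cy β) u - KE N D β u) +
          nw D.Z.toPre 0 (fun x => ψ x.2) (sig D.B D.Z (cy β) 2 u + KT N D β u) + ρ) := by
  obtain ⟨K, hK⟩ := h.exists_K (k := 0) (.inl rfl)
  obtain ⟨d, C, hT⟩ := h.tk hK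
  obtain ⟨c, h1, ε, hε, H⟩ := (cyO_AZ h.toHz hd).pk hT (n0 h.toHz hη)
    fun v hv => h.ker_le hd hK hl hc irr hn hη h0 hv
  refine ⟨2 * c, by positivity, ε, hε, fun G hG => ?_⟩
  obtain ⟨δ₀, h2, H⟩ := H (G * 2) (by positivity)
  refine ⟨δ₀, h2, fun δ h3 h4 ψ ς k p u hu ρ hρ row => ?_⟩
  have b := bs_cyl h.ok h.adm
  have v := vr_sc2 (1 / 2) 1 hu
  have cb : D.Z.Cb fun x => exp (ψ x.2) := cb_snd p.sψ.exp
  have f := hu.fl.smul cb
  have e : (fun x : Y × ℝ => exp (ψ x.2) • sc2 _ _ (1 / 2) 1 (u x)) =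
      fun x => sc2 _ _ (1 / 2) 1 (exp (ψ x.2) • u x) := funext fun x => (map_smul _ _ _).symm
  have k1 := H δ h3 h4 ψ ς k p _ _ v.fl ((tg_iff h.toHz).1 v.tg) (h.vr_hs v).fl
    ((tg_iff h.toHz).1 (h.vr_hs v).tg) (fun x => hK _ x v) ρ hρ (by
      refine le_trans (le_of_eq ?_) (row.trans ?_)
      · simp only [row_nR]
        exact congrArg _ (integral_congr_ae (ae_of_all _ fun t => congrArg
          (fun z => (k t * exp (ψ t) * ((μ0 h.toHz hη)⁻¹ * z)) ^ 2)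
          (integral_congr_ae (ae_of_all _ fun y => inner_half _ _))))
      · rw [e, mul_assoc, show (cylP D.F.toPre).D none (fun x => sc2 _ _ (1 / 2) 1 (exp (ψ x.2) • u x)) =
          fun x => sc2 _ _ (1 / 2) 1 (D.Z.D none (fun x => exp (ψ x.2) • u x) x) from
          funext fun x => dv_clm _ (f.sm.mdifferentiableAt (by simp))]
        exact add_le_add_right (mul_le_mul_of_nonneg_left (nrm0_half (f.D none)) hG) _)
  simp only [h.app_AZ hu] at k1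
  rw [e] at k1
  have k2 := nrm0_sz (tame_Z h.ok).choose_spec cb (a := sig D.B D.Z (cy β) 2 u + KT N D β u)
    (b := lin D.B D.Z (cy β) u - KE N D β u)
    ((sig_eq (F := D.Z) (B := D.B) u ▸ (hu.fl.clm _).opA (b.good_row 2).choose_spec.2 :
      Fl D.Z.toPre (sig D.B D.Z (cy β) 2 u)).add (h.fl_K hu).2)
    ((hu.fl.opA b.good_lin.choose_spec.2).sub (h.fl_K hu).1)
  have k3 := mul_le_mul_of_nonneg_left (nrm0_half f) h3.le
  rw [mul_left_comm] at k3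
  rw [mul_assoc]
  exact k3.trans (mul_le_mul_of_nonneg_left (k1.trans (mul_le_mul_of_nonneg_left
    (add_le_add_left k2 _) h1)) zero_le_two)

/-- **the linear theory at a nondegenerate critical point** -/
theorem lz : ∃ n ν, (ν = 0 → Fix D.Z (cy β) univ) ∧ ∀ τ : Pt (Y × ℝ) (Option κ) lam 0 0,
    Tw D β (te τ (cy β)) → (∀ u, Vr D β u → d0 (te τ (cy β)) u = KE N D β u) →
    Lz D β τ 2 (KE N D β) (KT N D β) n ν := by
  obtain ⟨η, hη, h0⟩ := exists_u0 h.toHz hl irr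
  refine ⟨nR h.toHz hη, _, fun e => fix_n0 h.toHz hη ?_, fun τ T hT => ⟨two_ne_zero,
    rw_nR h.toHz hη hl h0, fun u v hu hv => ?_, fun u hu => ⟨(h.fl_K hu).1, (h.fl_K hu).2,
      fun x => Submodule.smul_mem _ _ ((h.vr_hz hu).tg.mem x none), (T.fl u hu).2⟩,
    fun ξ h1 h2 => ⟨(h.gau hc ξ h1 h2).1, funext fun x => ?_⟩, ?_, h.pk hd hl hc irr hn hη h0⟩⟩
  · simpa using e
  · have e : hz N D β (u - v) = hz N D β u - hz N D β v := h.tw.sub hu hv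
    exact ⟨funext fun x => by rw [KE, e]; exact map_sub _ _ _,
      funext fun x => by rw [KT, e]; exact map_sub _ _ _⟩
  · rw [KT, _root_.smul_apply, show (pj _ none ∘L fa) _ = 0 from (h.gau hc ξ h1 h2).2 x, smul_zero]
    rfl
  obtain ⟨d, h1, H⟩ := T.bd
  obtain ⟨d', h2, H'⟩ := h.tw.bd
  refine ⟨min d d', lt_min h1 h2, fun k hk Dd => ?_⟩
  obtain ⟨C, hC, r, hr, H⟩ := H k hk Dd
  obtain ⟨C', hC', r', -, H'⟩ := H' k hk Dd
  obtain ⟨L, hL, HL⟩ := nwk_clm (D := D) (V := Cv (cy β)) (W := (cy β).m.A)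
    ((4 : ℝ) • (pj _ none ∘L fa)) k
  have p := mul_nonneg hL hC'
  refine ⟨C + L * C', by positivity, r, hr, fun ψ hψ u hu => ?_⟩
  have k1 := H ψ (hψ.mono (min_le_left _ _)) u hu
  rw [hT u hu] at k1
  refine ⟨k1.1.trans (mul_le_mul_of_nonneg_right (by linarith) (nw_nonneg _ _)),
    (HL _ _ _ hψ _ (h.vr_hz hu).fl).trans ((mul_le_mul_of_nonneg_left
      (H' ψ (hψ.mono (min_le_right _ _)) u hu).1 hL).trans ?_),
    fun h3 => (k1.2 h3).trans (mul_le_mul_of_nonneg_right (by linarith) (sq_nonneg _))⟩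
  rw [← mul_assoc]
  exact mul_le_mul_of_nonneg_right (by linarith) (nw_nonneg _ _)

theorem lz_q : ∃ n ν, (ν = 0 → Fix D.Z (cy β) univ) ∧
    Lz D β (N.q1 D.nk) 2 (KE N D β) (KT N D β) n ν ∧
    ∀ q, Lz D β (N.pt D.nk q) 2 (KE N D β) (KT N D β) n ν :=
  let ⟨n, ν, h1, H⟩ := h.lz hd hl hc irr hn
  ⟨n, ν, h1, H _ h.tw_q1.1 h.tw_q1.2, fun q => H _ (h.tw_pt q).1 (h.tw_pt q).2⟩

end Kp

end Crest.Agent.X212.Cyf70
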